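import Vale.Agent.P200.SmallH2.Graded
import Mathlib.RingTheory.MvPolynomial.Ideal

/-!
Initial segments of the monomials of the box `[0,a) × [0,b) × [0,c)` with `a + b = c + 3`, and
the monomial ideals they define.
-/

namespace Vale.Agent.P200.Ternary

open Finset MvPolynomial Module

/-- Number of monomials of degree `d` in `[0,i) × [0,b) × ℕ`. -/
def R (b d i : ℕ) : ℕ := ∑ t ∈ range i, min (d + 1 - t) b

lemma R_succ (b d i : ℕ) : R b d (i + 1) = R b d i + min (d + 1 - i) b := sum_range_succ _ _

lemma R_mono (b d : ℕ) {i k : ℕ} (h : i ≤ k) : R b d i ≤ R b d k :=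
  sum_le_sum_of_subset (range_mono h)

lemma R_succ_deg (b d : ℕ) : ∀ i, i ≤ d + 2 → R b (d + 1) i = R b d i + (i - (d + 2 - b)) := by
  intro i
  induction i with
  | zero => simp [R]
  | succ i ih =>
    intro hi
    rw [R_succ, R_succ, ih (by omega)]
    omega

lemma R_shift (b d i : ℕ) : R b (d + 1) (i + 1) = min (d + 2) b + R b d i := by
  rw [R, sum_range_succ', add_comm]
  refine congrArg₂ (· + ·) (by omega) (sum_congr rfl fun t _ => ?_)
  omega

lemma R_eq_mul (b d : ℕ) : ∀ i, i + b ≤ d + 2 → R b d i = i * b := by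
  intro i
  induction i with
  | zero => simp [R]
  | succ i ih =>
    intro hi
    rw [R_succ, ih (by omega), add_one_mul]
    omega

lemma R_surj (b d : ℕ) : ∀ k n, n < R b d k →
    ∃ i j, i < k ∧ j < min (d + 1 - i) b ∧ R b d i + j = n := by
  intro k
  induction k with
  | zero => intro n hn; simp [R] at hn
  | succ k ih =>
    intro n hn
    rw [R_succ] at hn
    rcases Nat.lt_or_ge n (R b d k) with h | h
    · obtain ⟨i, j, h1, h2, h3⟩ := ih n h
      exact ⟨i, j, by omega, h2, h3⟩
    · exact ⟨k, n - R b d k, by omega, by omega, by omega⟩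

lemma R_compl {a b c m : ℕ} (habc : a + b = c + 3) (hm : m < c) :
    R b m a + R b (c - m) a = a * b := by
  unfold R
  rw [← sum_range_reflect (fun t => min (c - m + 1 - t) b) a, ← sum_add_distrib]
  have : ∀ t ∈ range a, min (m + 1 - t) b + min (c - m + 1 - (a - 1 - t)) b = b := fun t ht => by
    have := mem_range.1 ht
    omega
  rw [sum_congr rfl this]
  simp

variable (a b c : ℕ)

/-- The monomials of degree `d` in the box, by their first two exponents. -/
def P (d : ℕ) : Finset (ℕ × ℕ) :=
  (range a ×ˢ range b).filter fun x => x.1 + x.2 ≤ d ∧ d < x.1 + x.2 + c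

variable {a b c}

lemma mem_P {d : ℕ} {x : ℕ × ℕ} :
    x ∈ P a b c d ↔ x.1 < a ∧ x.2 < b ∧ x.1 + x.2 ≤ d ∧ d < x.1 + x.2 + c := by
  simp [P, and_assoc]

/-- The excluded power of the last variable. -/
def ex (c d : ℕ) : ℕ := if d = c then 1 else 0

variable (a b c)

/-- An initial segment of `P d`, for `d ≤ c`. -/
def seg (d h : ℕ) : Finset (ℕ × ℕ) :=
  (P a b c d).filter fun x => R b d x.1 + x.2 < h + ex c d

variable {a b c}

lemma card_seg (_hc : 2 ≤ c) (hb : 1 ≤ b) {d h : ℕ} (hd : d ≤ c) (hh : h + ex c d ≤ R b d a) :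
    (seg a b c d h).card = h := by
  classical
  set F := ((range a ×ˢ range b).filter fun x => x.1 + x.2 ≤ d ∧ R b d x.1 + x.2 < h + ex c d)
    with hF
  have hcard : F.card = h + ex c d := by
    rw [← card_range (h + ex c d)]
    refine card_bij (fun x _ => R b d x.1 + x.2) ?_ ?_ ?_
    · intro x hx
      simp [F] at hx
      simp [hx.2.2]
    · rintro ⟨i, j⟩ h1 ⟨i', j'⟩ h2 he
      simp [F] at h1 h2 he
      rcases lt_trichotomy i i' with h' | rfl | h'
      · have := R_mono b d (Nat.succ_le_of_lt h')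
        rw [R_succ] at this
        omega
      · simp only [Prod.mk.injEq, true_and]; omega
      · have := R_mono b d (Nat.succ_le_of_lt h')
        rw [R_succ] at this
        omega
    · intro n hn
      obtain ⟨i, j, h1, h2, h3⟩ := R_surj b d a n (by simp at hn; omega)
      refine ⟨(i, j), ?_, h3⟩
      simp [F, h3] at hn ⊢
      omega
  by_cases h0 : d = c
  · have : seg a b c d h = F.erase (0, 0) := by
      ext ⟨i, j⟩
      simp [seg, F, mem_P]
      omega
    have hmem : ((0, 0) : ℕ × ℕ) ∈ F := by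
      have : 0 < a := by
        by_contra hc'
        simp [show a = 0 by omega, R, ex, h0] at hh
      simp [F, ex, h0, R]
      omega
    rw [this, card_erase_of_mem hmem, hcard]
    simp [ex, h0]
  · have : seg a b c d h = F := by
      ext ⟨i, j⟩
      simp [seg, F, mem_P]
      omega
    rw [this, hcard]
    simp [ex, h0]

lemma card_P (hc : 2 ≤ c) (hb : 1 ≤ b) {d h : ℕ} (hd : d ≤ c) (hh : h + ex c d = R b d a) :
    (P a b c d).card = h := by
  rw [← card_seg hc hb hd hh.le]
  congr 1
  refine (filter_true_of_mem fun x hx => ?_).symm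
  obtain ⟨h1, h2, h3, -⟩ := mem_P.1 hx
  have := R_mono b d (Nat.succ_le_of_lt h1)
  rw [R_succ] at this
  omega

/-- `y` divides `x`, in degrees `d` and `d + 1`. -/
def Adj (y x : ℕ × ℕ) : Prop := y.1 ≤ x.1 ∧ y.2 ≤ x.2 ∧ x.1 + x.2 ≤ y.1 + y.2 + 1

variable (a b c)

/-- The numerical form of the growth bound below degree `c`. -/
def Grow (h : ℕ → ℕ) : Prop :=
  ∀ d < c, h (d + 1) = 0 ∨ ∃ v, h (d + 1) + ex c (d + 1) ≤ h d + v ∧
    (v = 0 ∨ (v + (d + 2 - b) ≤ a ∧ R b d (d + 2 - b + v) ≤ h d))

variable {a b c}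

lemma seg_down {h : ℕ → ℕ} (hG : Grow a b c h) {d : ℕ} (hd : d < c) {x y : ℕ × ℕ}
    (hx : x ∈ seg a b c (d + 1) (h (d + 1))) (hy : y ∈ P a b c d) (hA : Adj y x) :
    y ∈ seg a b c d (h d) := by
  obtain ⟨i, j⟩ := x
  obtain ⟨k, l⟩ := y
  simp only [seg, mem_filter] at hx ⊢
  refine ⟨hy, ?_⟩
  obtain ⟨hxP, hxlt⟩ := hx
  rcases hG d hd with h0 | ⟨v, hv, hcase⟩
  · simp only [h0, zero_add] at hxlt
    simp [ex] at hxlt
    split at hxlt
    · next h1 =>
      simp [mem_P] at hxP
      obtain rfl : j = 0 := by omega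
      rcases Nat.eq_zero_or_pos i with rfl | hi
      · omega
      · have := R_mono b (d + 1) (Nat.succ_le_of_lt hi)
        rw [R_succ] at this
        omega
    · omega
  simp only [mem_P] at hxP hy
  simp only [Adj] at hA
  rw [R_succ_deg b d i (by omega)] at hxlt
  rw [show ex c d = 0 by simp [ex]; omega, add_zero]
  have hk := R_succ b d k
  have hki := R_mono b d hA.1
  have key : v ≠ 0 → i < d + 2 - b + v ∨ i = k + 1 ∧ i ≤ d + 2 - b + v →
      R b d (k + 1) ≤ h d := fun h0 hi => by
    have := R_mono b d (show k + 1 ≤ d + 2 - b + v by omega)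
    rcases hcase with h | h <;> omega
  by_contra hcon
  rcases eq_or_lt_of_le hA.1 with hki' | hki'
  · subst hki'
    have := key (by omega) (Or.inl (by omega))
    omega
  · have : i = k + 1 := by omega
    subst this
    rcases hcase with h0 | h0
    · omega
    · have := R_mono b d (show k + 1 ≤ d + 2 - b + v by omega)
      omega

/-- The reflection of the box. -/
def refl (a b : ℕ) (x : ℕ × ℕ) : ℕ × ℕ := (a - 1 - x.1, b - 1 - x.2)

lemma refl_mem (habc : a + b = c + 3) {d : ℕ} {x : ℕ × ℕ} (hx : x ∈ P a b c d) (hd : d ≤ 2 * c) :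
    refl a b x ∈ P a b c (2 * c - d) ∧ refl a b (refl a b x) = x := by
  obtain ⟨i, j⟩ := x
  simp [mem_P, refl] at hx ⊢
  omega

lemma not_mem_P (habc : a + b = c + 3) {d : ℕ} (hd : 2 * c < d) (x : ℕ × ℕ) : x ∉ P a b c d := by
  simp only [mem_P]
  omega

/-- Initial segments up to degree `c`, reflected complements above. -/
def fam (a b c : ℕ) (h g : ℕ → ℕ) (d : ℕ) : Finset (ℕ × ℕ) :=
  if d ≤ c then seg a b c d (h d)
  else (P a b c d).filter fun x => refl a b x ∉ seg a b c (2 * c - d) (g (2 * c - d))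

section
variable (habc : a + b = c + 3) (hab : 2 ≤ a) (hbb : 2 ≤ b) (hc : 2 ≤ c) {h g : ℕ → ℕ}
include habc hab hbb hc

lemma fam_compl (hsum : g c + h c + 1 = R b c a) {d : ℕ} (hd : c ≤ d) :
    fam a b c h g d =
      (P a b c d).filter fun x => refl a b x ∉ seg a b c (2 * c - d) (g (2 * c - d)) := by
  unfold fam
  split
  · obtain rfl : d = c := by omega
    rw [show 2 * d - d = d by omega]
    refine filter_congr fun x hx => ?_
    obtain ⟨i, j⟩ := x
    have hr := (refl_mem habc hx (by omega)).1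
    rw [show 2 * d - d = d by omega] at hr
    simp only [seg, mem_filter, hr, true_and, not_lt]
    simp only [refl, ex, if_pos]
    simp [mem_P] at hx
    have hR : R b d a = a * b - 1 := by
      obtain ⟨a', rfl⟩ : ∃ a', a = a' + 1 := ⟨a - 1, by omega⟩
      rw [R_succ, R_eq_mul b d a' (by omega), add_one_mul]
      omega
    rw [R_eq_mul b d i (by omega), R_eq_mul b d (a - 1 - i) (by omega), Nat.sub_mul, Nat.sub_mul]
    have : i * b + b ≤ a * b := by
      rw [← add_one_mul]; exact Nat.mul_le_mul_right b hx.1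
    omega
  · rfl

lemma fam_down (hG : Grow a b c h) (gG : Grow a b c g) (hsum : g c + h c + 1 = R b c a)
    {d : ℕ} {x y : ℕ × ℕ} (hx : x ∈ fam a b c h g (d + 1)) (hy : y ∈ P a b c d) (hA : Adj y x) :
    y ∈ fam a b c h g d := by
  rcases Nat.lt_or_ge d c with hd | hd
  · simp only [fam, if_pos (show d + 1 ≤ c by omega)] at hx
    simp only [fam, if_pos hd.le]
    exact seg_down hG hd hx hy hA
  · rw [fam_compl habc hab hbb hc hsum (show c ≤ d + 1 by omega), mem_filter] at hx
    rw [fam_compl habc hab hbb hc hsum hd, mem_filter]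
    have hd2 : d + 1 ≤ 2 * c := by
      by_contra hn
      exact not_mem_P habc (by omega) x hx.1
    refine ⟨hy, fun hm => hx.2 ?_⟩
    rw [show 2 * c - d = 2 * c - (d + 1) + 1 by omega] at hm
    refine seg_down gG (by omega) hm (refl_mem habc hx.1 hd2).1 ?_
    simp only [Adj, refl] at hA ⊢
    simp [mem_P] at hy hx
    omega

lemma card_fam (hh : ∀ d ≤ c, h d + ex c d ≤ R b d a) (gh : ∀ d ≤ c, g d + ex c d ≤ R b d a)
    (hsum : ∀ m ≤ c, g m + h (2 * c - m) + ex c m = R b m a) (h0 : ∀ d, 2 * c < d → h d = 0)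
    (d : ℕ) : (fam a b c h g d).card = h d := by
  classical
  unfold fam
  split
  · next hd => exact card_seg hc (by omega) hd (hh d hd)
  · next hd =>
    rcases Nat.lt_or_ge (2 * c) d with h2 | h2
    · rw [h0 d h2, card_eq_zero, filter_eq_empty_iff]
      exact fun x hx => absurd hx (not_mem_P habc h2 x)
    obtain ⟨m, rfl⟩ : ∃ m, d = 2 * c - m := ⟨2 * c - d, by omega⟩
    rw [show 2 * c - (2 * c - m) = 2 * c - (2 * c - m) from rfl]
    set m' := 2 * c - (2 * c - m) with hm'
    have e := hsum m' (by omega)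
    rw [show 2 * c - m' = 2 * c - m by omega] at e
    have hP : (P a b c (2 * c - m)).card = g m' + h (2 * c - m) := by
      rw [← card_P (a := a) hc (by omega) (show m' ≤ c by omega) e]
      refine card_bij' (fun x _ => refl a b x) (fun x _ => refl a b x) ?_ ?_ ?_ ?_
      · exact fun x hx => (refl_mem habc hx (by omega)).1
      · intro x hx
        have := (refl_mem habc hx (by omega)).1
        rwa [show 2 * c - m' = 2 * c - m by omega] at this
      · exact fun x hx => (refl_mem habc hx (by omega)).2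
      · exact fun x hx => (refl_mem habc hx (by omega)).2
    have hF : ((P a b c (2 * c - m)).filter fun x => refl a b x ∈ seg a b c m' (g m')).card =
        g m' := by
      refine Eq.trans ?_ (card_seg (a := a) hc (show 1 ≤ b by omega) (show m' ≤ c by omega) (gh m' (by omega)))
      refine card_bij' (fun x _ => refl a b x) (fun x _ => refl a b x) ?_ ?_ ?_ ?_
      · exact fun x hx => (mem_filter.1 hx).2
      · intro x hx
        have hxP := (mem_filter.1 hx).1
        have h1 := refl_mem habc hxP (show m' ≤ 2 * c by omega)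
        rw [show 2 * c - m' = 2 * c - m by omega] at h1
        exact mem_filter.2 ⟨h1.1, by rw [h1.2]; exact hx⟩
      · exact fun x hx => (refl_mem habc (mem_filter.1 hx).1 (by omega)).2
      · exact fun x hx => (refl_mem habc (mem_filter.1 hx).1 (by omega)).2
    have := card_filter_add_card_filter_not (s := P a b c (2 * c - m))
      (fun x => refl a b x ∈ seg a b c m' (g m'))
    rw [hF, hP] at this
    omega

end

/-- The monomial ideal attached to a downward closed family. -/
theorem exists_ideal {K : Type*} [Field K] (Q : SmallH2.GI K 3) {a b c : ℕ}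
    (F : ℕ → Finset (ℕ × ℕ)) (hP : ∀ d, F d ⊆ P a b c d) (hcard : ∀ d, (F d).card = Q.hf d)
    (hdown : ∀ d x y, x ∈ F (d + 1) → y ∈ P a b c d → Adj y x → y ∈ F d) :
    ∃ J : Ideal (MvPolynomial (Fin 3) K),
      (∃ G : Set (Fin 3 →₀ ℕ), J = Ideal.span ((fun s => monomial s (1 : K)) '' G)) ∧
      (X 0 ^ a ∈ J ∧ X 1 ^ b ∈ J ∧ X 2 ^ c ∈ J) ∧
      ∀ d, finrank K ↑(homogeneousSubmodule (Fin 3) K d ⊓ J.restrictScalars K) =
        finrank K (Q.piece d) := by
  classical
  let Std : (Fin 3 →₀ ℕ) → Prop := fun s => (s 0, s 1) ∈ F (s 0 + s 1 + s 2)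
  set G : Set (Fin 3 →₀ ℕ) := {s | ¬ Std s}
  have hStd : ∀ N (s t : Fin 3 →₀ ℕ), s 0 + s 1 + s 2 = N → t ≤ s → Std s → Std t := by
    intro N
    induction N with
    | zero =>
      intro s t hN hts hs
      have : t = s := Finsupp.ext fun i => le_antisymm (hts i) (by fin_cases i <;> simp <;> omega)
      rwa [this]
    | succ N ih =>
      intro s t hN hts hs
      by_cases he : t = s
      · rwa [he]
      obtain ⟨i, hi⟩ : ∃ i, t i < s i := by
        by_contra hn
        push Not at hn
        exact he (Finsupp.ext fun i => le_antisymm (hts i) (hn i))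
      set s' := s - Finsupp.single i 1
      have hts' : t ≤ s' := fun k => by
        have := hts k
        by_cases hk : i = k
        · subst hk; simp [s']; omega
        · simp [s', Finsupp.single_apply, hk]; omega
      have hs'P : (s' 0, s' 1) ∈ P a b c N ∧ Adj (s' 0, s' 1) (s 0, s 1) ∧
          s' 0 + s' 1 + s' 2 = N := by
        have h1 := mem_P.1 (hP _ hs)
        fin_cases i <;> simp [s', Adj, mem_P, Finsupp.single_apply] at hi h1 ⊢ <;> omega
      refine ih s' t hs'P.2.2 hts' ?_
      show _ ∈ F _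
      rw [hs'P.2.2]
      exact hdown N _ _ (hN ▸ hs) hs'P.1 hs'P.2.1
  set J := Ideal.span ((fun s => monomial s (1 : K)) '' G)
  have hX : ∀ (i : Fin 3) (e : ℕ), (∀ s : Fin 3 →₀ ℕ, Std s → s i < e) → X i ^ e ∈ J := by
    intro i e he
    rw [X_pow_eq_monomial]
    exact Ideal.subset_span ⟨_, fun hs => by simpa using he _ hs, rfl⟩
  refine ⟨J, ⟨G, rfl⟩, ⟨hX 0 a fun s hs => (mem_P.1 (hP _ hs)).1,
    hX 1 b fun s hs => (mem_P.1 (hP _ hs)).2.1, hX 2 c fun s hs => ?_⟩, fun d => ?_⟩
  · have := mem_P.1 (hP _ hs)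
    simp only at this
    omega
  set D : Set (Fin 3 →₀ ℕ) := {s | s.degree = d}
  have hfinD : D.Finite := by
    have : Finite {s : Fin 3 →₀ ℕ | s.degree = d} := Finite.of_equiv _ (Sym.equivNatSum (Fin 3) d)
    exact Set.toFinite _
  have hdeg : ∀ s : Fin 3 →₀ ℕ, s.degree = s 0 + s 1 + s 2 := fun s => by
    rw [Finsupp.degree_eq_sum, Fin.sum_univ_three]
  have hJ : homogeneousSubmodule (Fin 3) K d ⊓ J.restrictScalars K = restrictSupport K (D ∩ G) := by
    ext p
    rw [Submodule.mem_inf, mem_restrictSupport_iff, Submodule.restrictScalars_mem]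
    constructor
    · rintro ⟨hp, hJ⟩ s hs
      refine ⟨?_, fun hstd => ?_⟩
      · by_contra hne
        exact mem_support_iff.1 hs ((hp : p.IsHomogeneous d).coeff_eq_zero hne)
      · obtain ⟨t, ht, hts⟩ := mem_ideal_span_monomial_image.1 hJ s hs
        exact ht (hStd _ s t rfl hts hstd)
    · intro h
      refine ⟨?_, mem_ideal_span_monomial_image.2 fun s hs => ⟨s, (h hs).2, le_rfl⟩⟩
      rw [homogeneousSubmodule_eq_finsupp_supported]
      exact fun s hs => (h hs).1
  haveI : Fintype ↑(D ∩ G) := (hfinD.inter_of_left _).fintype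
  have hrank : finrank K ↑(homogeneousSubmodule (Fin 3) K d ⊓ J.restrictScalars K) =
      (D ∩ G).ncard := by
    rw [hJ, finrank_eq_card_basis (basisRestrictSupport K (D ∩ G)), Set.ncard_eq_toFinset_card',
      Set.toFinset_card]
  haveI : Fintype ↑D := hfinD.fintype
  have hD : finrank K (homogeneousSubmodule (Fin 3) K d) = D.ncard := by
    rw [Set.ncard_eq_toFinset_card', Set.toFinset_card,
      ← finrank_eq_card_basis (basisRestrictSupport K D), homogeneousSubmodule_eq_finsupp_supported]
    rfl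
  have hstd : (D \ G).ncard = (F d).card := by
    rw [← Set.ncard_coe_finset]
    refine Set.ncard_congr (fun s _ => (s 0, s 1)) ?_ ?_ ?_
    · rintro s ⟨hs, hG'⟩
      simp only [G, Set.mem_ofPred_eq, not_not, Std] at hG'
      simp only [D, Set.mem_ofPred_eq, hdeg] at hs
      rw [← hs]
      exact hG'
    · rintro s t ⟨hs, -⟩ ⟨ht, -⟩ hst
      simp only [D, Set.mem_ofPred_eq, hdeg] at hs ht
      simp only [Prod.mk.injEq] at hst
      refine Finsupp.ext fun i => ?_
      fin_cases i <;> simp <;> omega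
    · rintro ⟨i, j⟩ hx
      have h1 := mem_P.1 (hP d hx)
      simp only at h1
      refine ⟨Finsupp.equivFunOnFinite.symm ![i, j, d - i - j], ⟨?_, ?_⟩, by simp⟩
      · simp [D, hdeg]; omega
      · simp only [G, Set.mem_ofPred_eq, not_not, Std]
        simpa [show i + j + (d - i - j) = d by omega] using hx
  have htot := Set.ncard_inter_add_ncard_sdiff_eq_ncard D G hfinD
  have := Q.hf_add d
  have := hcard d
  omega

end Vale.Agent.P200.Ternary
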