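import Vale.Agent.P200.Ternary.Kill

/-!
The growth bounds in degrees `c - 1` and `c` for three forms of degrees `a ≤ b ≤ c` with
`a + b = c + 4` in three variables.
-/

namespace Vale.Agent.P200.Ternary

open MvPolynomial Module Vale.Agent.P200.SmallH2

variable {K : Type*} [Field K]

local instance finiteHomFour (d : ℕ) : Module.Finite K (homogeneousSubmodule (Fin 3) K d) :=
  Module.Finite.iff_fg.2 (homogeneousSubmodule_fg (Fin 3) K d)

/-- A base point in degree `c - 1`, with no ordering of the three forms assumed at the point. -/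
lemma point_bound [IsAlgClosed K] {a b e : ℕ} {Q : GI K 3} {f₁ f₂ f₃ : MvPolynomial (Fin 3) K}
    (ha : 2 ≤ a) (hab : a ≤ b) (hbc : b ≤ e + 1) (hT : Triple Q a b (e + 1) f₁ f₂ f₃)
    {p : Fin 3 → K} (hp : ∀ q ∈ Q.piece e, eval p q = 0) (hp0 : p ≠ 0) {v : ℕ} (hv : 1 ≤ v)
    (hle : Q.hf e + v ≤ Q.hf (e + 1) + 1) :
    v + (e + 2 - b) ≤ a ∧ R b e (e + 2 - b + v) ≤ Q.hf e := by
  have key : ∀ g₁ g₂ g₃, Triple Q a b (e + 1) g₁ g₂ g₃ → eval p g₃ ≠ 0 →
      v + (e + 2 - b) ≤ a ∧ R b e (e + 2 - b + v) ≤ Q.hf e := fun g₁ g₂ g₃ hG hg =>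
    corner_point (c := e + 1) ha hab hbc hG hp hp0 hg hv hle
  by_cases h3 : eval p f₃ = 0
  · by_cases h2 : eval p f₂ = 0
    · have h1 : eval p f₁ ≠ 0 := fun h1 => hp0 (hT.nz p h1 h2 h3)
      have hac : a = e + 1 := by
        by_contra hn
        exact h1 (eval_eq_zero_of_piece (show a ≤ e by omega) hT.m₁ hp hp0)
      refine key f₃ f₂ f₁ ⟨?_, hT.m₂, ?_, fun q a b c => hT.nz q c b a⟩ h1
      · rw [hac]; exact hT.m₃
      · rw [← hac]; exact hT.m₁
    · have hbc' : b = e + 1 := by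
        by_contra hn
        exact h2 (eval_eq_zero_of_piece (show b ≤ e by omega) hT.m₂ hp hp0)
      refine key f₁ f₃ f₂ ⟨hT.m₁, ?_, ?_, fun q a b c => hT.nz q a c b⟩ h2
      · rw [hbc']; exact hT.m₃
      · rw [← hbc']; exact hT.m₂
  · exact key f₁ f₂ f₃ hT h3

/-- Forms of low degree in a base point free space contain a regular pair. -/
lemma exists_two_of_bpf [IsAlgClosed K] {Q : GI K 3} {a n : ℕ} {f₁ : MvPolynomial (Fin 3) K}
    (ha : 2 ≤ a) (hn : 2 ≤ n) (h1 : f₁ ∈ Q.piece a) (hf0 : f₁ ≠ 0) (hb : Bpf (Q.piece n)) :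
    ∃ g₁ g₂, Two Q (min a n) n g₁ g₂ := by
  obtain ⟨a', ha', g₁, hg₁, hg0⟩ : ∃ a', a' = min a n ∧ ∃ g₁ ∈ Q.piece a', g₁ ≠ 0 := by
    rcases Nat.lt_or_ge n a with h | h
    · refine ⟨n, by omega, ?_⟩
      by_contra hc
      push Not at hc
      have := hb (fun _ => 1) fun q hq => by rw [hc q hq, map_zero]
      simpa using congrFun this 0
    · exact ⟨a, by omega, f₁, h1, hf0⟩
  subst ha'
  have hdom : ∀ x, g₁ * x ∈ (⊥ : Ideal (MvPolynomial (Fin 3) K)) → x ∈ (⊥ : Ideal _) := fun x hx => by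
    simpa [hg0] using hx
  have hbot : Closed (⊥ : Ideal (MvPolynomial (Fin 3) K)) := (sat_bot Q).closed
  have hk0 : ∀ j, KExact (Ideal.span {g₁}) 0 j := fun j => by
    rw [← bot_sup_eq (Ideal.span {g₁})]
    exact kexact_succ hbot (show 1 ≤ min a n by omega) (Q.le _ hg₁) hdom (kexact_bot (by omega) j)
      fun _ => kexact_bot (by omega) _
  have hcl : Closed (Ideal.span {g₁}) := by
    intro x hx i
    obtain ⟨w, rfl⟩ := Ideal.mem_span_singleton'.1 hx
    rw [mul_comm w g₁]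
    by_cases hi : i < min a n
    · rw [homogeneousComponent_mul_lt (Q.le _ hg₁) w hi]; exact Submodule.zero_mem _
    · obtain ⟨j, rfl⟩ : ∃ j, i = min a n + j := ⟨i - min a n, by omega⟩
      rw [homogeneousComponent_mul (Q.le _ hg₁)]
      exact Ideal.mul_mem_right _ _ (Ideal.mem_span_singleton_self _)
  obtain ⟨g₂, hg₂, hreg⟩ := exists_regular' hcl hk0 _ hb
  exact ⟨g₁, g₂, hg₁, hg₂, pair_of_regular (by omega) (by omega) hg₁ hg₂ hg0 hreg⟩

/-- A linear form with a kernel, splitting the dimensions in two adjacent degrees. -/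
lemma ker_split [IsAlgClosed K] {Q : GI K 3} {e : ℕ} (hb : Bpf (Q.piece (e + 1)))
    (h0 : 0 < Q.hf (e + 1)) (hle : Q.hf (e + 1) ≤ Q.hf (e + 1 + 1))
    (hh : Q.hf (e + 1 + 1) ≤ Q.hf (e + 1) + 1) :
    ∃ z, ∃ _ : z ∈ homogeneousSubmodule (Fin 3) K 1, ∃ u u',
      Q.hf (e + 1) = u + (Q.colon z).hf e ∧ Q.hf (e + 1 + 1) = u' + (Q.colon z).hf (e + 1) ∧
      (Q.colon z).hf (e + 1) < Q.hf (e + 1) ∧ u' + 1 ≤ u := by
  obtain ⟨z, hz, hz0, hlt⟩ := exists_ker_form Q h0 hh
  have s1 := Q.hf_split hz hz0 e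
  have s2 := Q.hf_split hz hz0 (e + 1)
  have hu : 0 < (Q.addForm z hz).hf (e + 1) := by
    by_contra hn
    have := (Q.addForm z hz).hf_eq_zero_succ (d := e + 1) (by omega)
    omega
  exact ⟨z, hz, _, _, s1, s2, hlt,
    hf_succ_lt (addForm_self hz) hz0 (hb.mono (Q.le_addForm hz _)) hu⟩

/-- Rise of one without base points, in degree `b - 1`. -/
lemma bottom_bound [IsAlgClosed K] {Q : GI K 3} {e : ℕ} {f₁ : MvPolynomial (Fin 3) K}
    (he : 3 ≤ e) (h1 : f₁ ∈ Q.piece 5) (hf0 : f₁ ≠ 0) (hb : Bpf (Q.piece (e + 1)))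
    (hle : Q.hf (e + 1) + 1 ≤ Q.hf (e + 1 + 1)) : 3 * e + 3 ≤ Q.hf (e + 1) := by
  obtain ⟨g₁, g₂, hT⟩ := exists_two_of_bpf (n := e + 1) (by omega) (by omega) h1 hf0 hb
  have h0 : 0 < Q.hf (e + 1) := by
    by_contra hn
    have := Q.hf_eq_zero_succ (d := e + 1) (by omega)
    omega
  rcases Nat.lt_or_ge (Q.hf (e + 1) + 1) (Q.hf (e + 1 + 1)) with h | h
  · have h2 := (two_bound (e + 1) Q (by omega) (by omega) hT 2 (by omega) (by omega)).2
    rw [show e + 1 + 2 - (e + 1) + 2 = 4 by omega] at h2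
    simp [R, Finset.sum_range_succ] at h2
    omega
  · obtain ⟨z, hz, u, u', s1, s2, hlt, hu⟩ := ker_split hb h0 (by omega) h
    have h2 := (two_bound e (Q.colon z) (by omega) (by omega) (hT.colon hz) 2 (by omega)
      (by omega)).2
    rw [show e + 2 - (e + 1) + 2 = 3 by omega] at h2
    simp [R, Finset.sum_range_succ] at h2
    omega

/-- The degree `c - 1` without base points, when `b = c` and so `a = 4`. -/
lemma corner4_eq [IsAlgClosed K] {e : ℕ} {Q : GI K 3} {f₁ : MvPolynomial (Fin 3) K}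
    (he : 2 ≤ e) (h1 : f₁ ∈ Q.piece 4) (hf0 : f₁ ≠ 0)
    (hb : Bpf (Q.piece (e + 1))) (h0 : 0 < Q.hf (e + 1)) (hle : Q.hf (e + 1) ≤ Q.hf (e + 1 + 1)) :
    Q.hf (e + 1 + 1) + 1 - Q.hf (e + 1) + (e + 1 + 2 - (e + 2)) ≤ 4 ∧
      R (e + 2) (e + 1) (e + 1 + 2 - (e + 2) + (Q.hf (e + 1 + 1) + 1 - Q.hf (e + 1))) ≤
        Q.hf (e + 1) := by
  obtain ⟨g₁, g₂, hT⟩ := exists_two_of_bpf (n := e + 1) (by omega) (by omega) h1 hf0 hb
  rcases Nat.lt_or_ge (Q.hf (e + 1) + 1) (Q.hf (e + 1 + 1)) with h | h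
  · exfalso
    obtain ⟨h2, h3⟩ := two_bound (e + 1) Q (by omega) (by omega) hT 2 (by omega) (by omega)
    obtain ⟨g, J, -, -, -, hS, -, -⟩ :=
      hT.exists_triple (by omega) (by omega) (show 1 ≤ e + 1 by omega) hb
    have hup := hS.hf_le (e + 1)
    simp only [H3, le_refl, if_true, Nat.sub_self] at hup
    rw [R_zero (e + 1) (by omega) _ (by omega), show min 4 (e + 1) = 4 by omega] at hup
    rw [show e + 1 + 2 - (e + 1) + 2 = 4 by omega] at h3
    omega
  · obtain ⟨z, hz, u, u', s1, s2, hlt, hu⟩ := ker_split hb h0 hle h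
    rcases hle.eq_or_lt with heq | hlt'
    · have h2 := (two_bound e (Q.colon z) (by omega) (by omega) (hT.colon hz) 1 le_rfl
        (by omega)).2
      rw [show e + 2 - (e + 1) + 1 = 2 by omega] at h2
      rw [show Q.hf (e + 1 + 1) + 1 - Q.hf (e + 1) = 1 by omega,
        show e + 1 + 2 - (e + 2) = 1 by omega]
      simp [R, Finset.sum_range_succ] at h2 ⊢
      omega
    · have h2 := (two_bound e (Q.colon z) (by omega) (by omega) (hT.colon hz) 2 (by omega)
        (by omega)).2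
      rw [show e + 2 - (e + 1) + 2 = 3 by omega] at h2
      rw [show Q.hf (e + 1 + 1) + 1 - Q.hf (e + 1) = 2 by omega,
        show e + 1 + 2 - (e + 2) = 1 by omega]
      simp [R, Finset.sum_range_succ] at h2 ⊢
      omega

/-- The degree `c - 1` without base points, when `b < c`. -/
lemma corner4_lt [IsAlgClosed K] {k b e : ℕ} {Q : GI K 3} {f₁ f₂ : MvPolynomial (Fin 3) K}
    (he : k + b = e + 1) (hab : k + 5 ≤ b) (hT : Two Q (k + 5) b f₁ f₂) (hf0 : f₁ ≠ 0)
    (hb : Bpf (Q.piece (e + 1))) (h0 : 0 < Q.hf (e + 1)) (hle : Q.hf (e + 1) ≤ Q.hf (e + 1 + 1)) :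
    Q.hf (e + 1 + 1) + 1 - Q.hf (e + 1) + (e + 1 + 2 - b) ≤ k + 5 ∧
      R b (e + 1) (e + 1 + 2 - b + (Q.hf (e + 1 + 1) + 1 - Q.hf (e + 1))) ≤ Q.hf (e + 1) := by
  have ek2 : (k + 2) * b = k * b + 2 * b := by ring
  have ek3 : (k + 3) * b = k * b + 3 * b := by ring
  have ek4 : (k + 4) * b = k * b + 4 * b := by ring
  have ek1 : (k + 1) * b = k * b + b := by ring
  have ek5 : (k + 5) * b = k * b + 5 * b := by ring
  have E1 : R b e (k + 2) = k * b + 2 * b - 1 := by rw [R_tail (by omega)]; omega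
  have E2 : R b (e + 1) (k + 3) = k * b + 3 * b - 1 := by rw [R_tail (by omega)]; omega
  have E3 : R b (e + 1) (k + 4) = k * b + 4 * b - 3 := by rw [R_succ, E2]; omega
  have E4 : R b (e + 1) (k + 5) = k * b + 5 * b - 6 := by rw [R_succ, E3]; omega
  have E5 : R b (e + 2) (k + 4) = k * b + 4 * b - 1 := by rw [R_tail (by omega)]; omega
  have E6 : R b (e + 2) (k + 5) = k * b + 5 * b - 3 := by rw [R_succ, E5]; omega
  have E7 : R b (e + 3) (k + 5) = k * b + 5 * b - 1 := by rw [R_tail (by omega)]; omega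
  have E2' : R b 2 (k + 5) = 6 := by
    have : ∀ n, 3 ≤ n → R b 2 n = 6 := fun n hn => by
      induction n, hn using Nat.le_induction with
      | base => simp [R, Finset.sum_range_succ]; omega
      | succ n hn ih => rw [R_succ, ih]; omega
    exact this _ (by omega)
  -- lower bound from a single degree
  have low : ∀ Q' : GI K 3, ∀ g₁ g₂, Two Q' (k + 5) b g₁ g₂ → Bpf (Q'.piece (e + 1)) →
      0 < Q'.hf (e + 1) → Q'.hf (e + 1) ≤ Q'.hf (e + 1 + 1) →
      k * b + 2 * b + 1 ≤ Q'.hf (e + 1) := by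
    intro Q' g₁ g₂ hT' hb' h0' hle'
    rcases hle'.eq_or_lt with heq | hlt
    · have := flat_bound hT' (by omega) hab hb' heq.symm h0'
      rw [show e + 2 - b + 1 = k + 2 by omega, E1] at this
      omega
    · have h1 := (two_bound _ Q' (by omega) hab hT' 1 le_rfl hlt).2
      rw [show e + 1 + 2 - b + 1 = k + 3 by omega, E2] at h1
      omega
  obtain ⟨g, J, hgJ, h1J, h2J, hS, hk, hTr⟩ := hT.exists_triple (by omega) (by omega)
    (show 1 ≤ e + 1 by omega) hb
  have hH1 : H3 (k + 5) b (e + 1) (e + 1) = k * b + 5 * b - 7 := by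
    simp only [H3, le_refl, if_true, Nat.sub_self]
    rw [R_zero b (by omega) _ (by omega), E4]
    omega
  have hH2 : H3 (k + 5) b (e + 1) (e + 2) = k * b + 5 * b - 6 := by
    simp only [H3, if_pos (show e + 1 ≤ e + 2 by omega), show e + 2 - (e + 1) = 1 by omega]
    rw [E6, R_one (by omega) (by omega)]
    omega
  have hH3 : H3 (k + 5) b (e + 1) (e + 3) = k * b + 5 * b - 7 := by
    simp only [H3, if_pos (show e + 1 ≤ e + 3 by omega), show e + 3 - (e + 1) = 2 by omega]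
    rw [E7, E2']
    omega
  set D := 2 * e + 4 with hDdef
  have hhalf : ∀ m, m ≤ e → H3 (k + 5) b (e + 1) (D - m) = H3 (k + 5) b (e + 1) m := by
    intro m hm
    have := R_compl (a := k + 5) (b := b) (c := e + 3) (m := m) (by omega) (by omega)
    simp only [H3, if_pos (show e + 1 ≤ D - m by omega), if_neg (show ¬ e + 1 ≤ m by omega)]
    rw [R_eq_mul b (D - m) _ (by omega), show D - m - (e + 1) = e + 3 - m by omega]
    omega
  have hHD : H3 (k + 5) b (e + 1) D = 1 := by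
    simp only [H3, if_pos (show e + 1 ≤ D by omega)]
    rw [R_eq_mul b D _ (by omega), show D - (e + 1) = e + 3 by omega, E7]
    omega
  obtain ⟨L, hL, hsum⟩ := exists_link hS hHD (fun j hj => hk j (by omega)) fun m hm => by
    rcases (show m ≤ e ∨ m = e + 1 ∨ m = e + 2 ∨ m = e + 3 ∨ e + 4 ≤ m by omega) with
      h | rfl | rfl | rfl | h
    · exact hhalf m h
    · rw [show D - (e + 1) = e + 3 by omega, hH1, hH3]
    · rw [show D - (e + 2) = e + 2 by omega]
    · rw [show D - (e + 3) = e + 1 by omega, hH1, hH3]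
    · have := hhalf (D - m) (by omega)
      rw [show D - (D - m) = m by omega] at this
      exact this.symm
  have hTL : Triple L (k + 5) b (e + 1) f₁ f₂ g :=
    ⟨hL _ ⟨Q.le _ hTr.m₁, h1J⟩, hL _ ⟨Q.le _ hTr.m₂, h2J⟩, hL _ ⟨Q.le _ hTr.m₃, hgJ⟩, hTr.nz⟩
  have hTwoL := hTL.two (by omega) (by omega) (by omega)
  have hbL : ∀ m, e + 1 ≤ m → Bpf (L.piece m) := fun m hm => hTL.bpf (by omega) (by omega) hm
  have l2 := hsum (e + 2) (by omega)
  have l3 := hsum (e + 3) (by omega)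
  rw [show D - (e + 2) = e + 1 + 1 by omega, hH2] at l2
  rw [show D - (e + 3) = e + 1 by omega, hH3] at l3
  have hkb : 5 ≤ b := by omega
  rcases (show Q.hf (e + 1 + 1) = Q.hf (e + 1) ∨ Q.hf (e + 1 + 1) = Q.hf (e + 1) + 1 ∨
    Q.hf (e + 1) + 2 ≤ Q.hf (e + 1 + 1) by omega) with hr | hr | hr
  · rw [show Q.hf (e + 1 + 1) + 1 - Q.hf (e + 1) = 1 by omega,
      show e + 1 + 2 - b + 1 = k + 3 by omega, E2]
    refine ⟨by omega, ?_⟩
    rcases Nat.eq_zero_or_pos k with rfl | hkpos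
    · obtain ⟨z, hz, u, u', s1, s2, hlt, hu⟩ := ker_split hb h0 hle (by omega)
      by_cases hbC : Bpf ((Q.colon z).piece e)
      · obtain ⟨e', rfl⟩ : ∃ e', e = e' + 1 := ⟨e - 1, by omega⟩
        have := bottom_bound (by omega) (Q.le_colon hz _ hT.left) hf0 hbC (by omega)
        omega
      · obtain ⟨p, hv, hp0⟩ : ∃ p, (∀ q ∈ (Q.colon z).piece e, eval p q = 0) ∧ p ≠ 0 := by
          simpa [Bpf] using hbC
        have h2 := (point_bound (by omega) hab (by omega) (hTr.mono (Q.le_colon hz)) hv hp0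
          (show 1 ≤ 2 by omega) (by omega)).2
        rw [show e + 2 - b + 2 = 3 by omega] at h2
        simp [R, Finset.sum_range_succ] at h2
        omega
    · rcases Nat.eq_zero_or_pos (L.hf (e + 2 + 1)) with hL0 | hL0
      · change L.hf (e + 3) = 0 at hL0
        omega
      obtain ⟨z, hz, hz0, hu'⟩ := exists_coker_form L (d := e + 2) hL0 (by
        show L.hf (e + 2) ≤ L.hf (e + 3) + 1
        omega)
      have hu : 0 < (L.addForm z hz).hf (e + 2) := by
        by_contra hn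
        have := (L.addForm z hz).hf_eq_zero_succ (d := e + 2) (by omega)
        omega
      have hdec := hf_succ_lt (addForm_self hz) hz0
        ((hbL (e + 2) (by omega)).mono (L.le_addForm hz _)) hu
      have s1 := L.hf_split hz hz0 (e + 1)
      have s2 := L.hf_split hz hz0 (e + 2)
      change L.hf (e + 2) = _ at s1
      change L.hf (e + 3) = _ at s2
      change (L.addForm z hz).hf (e + 3) + 1 ≤ _ at hdec
      change 0 < (L.addForm z hz).hf (e + 3) at hu'
      change L.hf (e + 2) = (L.addForm z hz).hf (e + 2) + _ at s1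
      change L.hf (e + 3) = (L.addForm z hz).hf (e + 3) + _ at s2
      have hkb' : b ≤ k * b := Nat.le_mul_of_pos_left b hkpos
      rcases Nat.eq_zero_or_pos ((L.colon z).hf (e + 1)) with hC0 | hC0
      · have hsm := binary_small (U := L.addForm z hz) (hTL.mono (L.le_addForm hz)) (by omega) hab
          (by omega) (by omega) (addForm_self hz) hz0 (show e + 1 ≤ e + 2 by omega)
        omega
      · have l1 := low (L.colon z) f₁ f₂ (hTwoL.colon hz)
          ((hbL (e + 1) le_rfl).mono (L.le_colon hz _)) hC0 (by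
            show _ ≤ (L.colon z).hf (e + 2)
            omega)
        have l0 := low Q f₁ f₂ hT hb h0 hle
        omega
  · rw [show Q.hf (e + 1 + 1) + 1 - Q.hf (e + 1) = 2 by omega,
      show e + 1 + 2 - b + 2 = k + 4 by omega, E3]
    refine ⟨by omega, ?_⟩
    rcases Nat.eq_zero_or_pos (L.hf (e + 2)) with hL0 | hL0
    · omega
    · have heq : L.hf (e + 1 + 1 + 1) = L.hf (e + 1 + 1) := by
        show L.hf (e + 3) = L.hf (e + 2)
        omega
      have h2 := flat_bound hTwoL (by omega) hab (hbL _ (by omega)) heq hL0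
      rw [show e + 1 + 2 - b + 1 = k + 3 by omega, E2] at h2
      change _ ≤ L.hf (e + 2) at h2
      have h3 := (two_bound (e + 1) Q (by omega) hab hT 1 le_rfl (by omega)).2
      rw [show e + 1 + 2 - b + 1 = k + 3 by omega, E2] at h3
      omega
  · exfalso
    obtain ⟨h2, h3⟩ := two_bound (e + 1) Q (by omega) hab hT 2 (by omega) hr
    rw [show e + 1 + 2 - b + 2 = k + 4 by omega, E3] at h3
    have h4 := (two_bound (e + 2) L (by omega) hab hTwoL 1 le_rfl (by
      show L.hf (e + 2) + 1 ≤ L.hf (e + 3)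
      omega)).2
    rw [show e + 2 + 2 - b + 1 = k + 4 by omega, E5] at h4
    omega

/-- The numerical growth bound in all degrees below `c`, for `a + b = c + 4`. -/
theorem grow4 [IsAlgClosed K] {a b c : ℕ} {Q : GI K 3} {f₁ f₂ f₃ : MvPolynomial (Fin 3) K}
    (habc : a + b = c + 4) (hab : a ≤ b) (hbc : b ≤ c) (hT : Triple Q a b c f₁ f₂ f₃) :
    Grow a b c Q.hf := by
  intro d hd
  rcases Nat.lt_or_ge (d + 1) c with hlow | hhigh
  · right
    rw [show ex c (d + 1) = 0 by simp [ex]; omega]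
    rcases Nat.lt_or_ge (Q.hf d) (Q.hf (d + 1)) with h | h
    · exact ⟨Q.hf (d + 1) - Q.hf d, by omega, Or.inr (two_bound d Q (by omega) hab
        (hT.two (by omega) (by omega) (by omega)) _ (by omega) (by omega))⟩
    · exact ⟨0, by omega, Or.inl rfl⟩
  obtain ⟨e, rfl⟩ : ∃ e, c = e + 2 := ⟨c - 2, by omega⟩
  obtain rfl : d = e + 1 := by omega
  by_cases h0c : Q.hf (e + 1 + 1) = 0
  · exact Or.inl h0c
  right
  rw [show ex (e + 2) (e + 1 + 1) = 1 by simp [ex]]
  rcases Nat.lt_or_ge (Q.hf (e + 1 + 1)) (Q.hf (e + 1)) with h | hle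
  · exact ⟨0, by omega, Or.inl rfl⟩
  refine ⟨Q.hf (e + 1 + 1) + 1 - Q.hf (e + 1), by omega, Or.inr ?_⟩
  have h0 : 0 < Q.hf (e + 1) := by
    by_contra hn
    have := Q.hf_eq_zero_succ (d := e + 1) (by omega)
    omega
  have hne := (regular_second (K := K) (show 1 ≤ a by omega) (show 1 ≤ b by omega)
    (show 1 ≤ e + 2 by omega) (Q.le _ hT.m₁) (Q.le _ hT.m₂) (Q.le _ hT.m₃) hT.nz).1
  by_cases hb : Bpf (Q.piece (e + 1))
  · rcases hbc.eq_or_lt with rfl | hlt
    · obtain rfl : a = 4 := by omega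
      exact corner4_eq (by omega) hT.m₁ hne hb h0 hle
    · obtain ⟨k, rfl⟩ : ∃ k, a = k + 5 := ⟨a - 5, by omega⟩
      exact corner4_lt (show k + b = e + 1 by omega) hab
        (hT.two (by omega) (by omega) (by omega)) hne hb h0 hle
  obtain ⟨p, hv, hp0⟩ : ∃ p, (∀ q ∈ Q.piece (e + 1), eval p q = 0) ∧ p ≠ 0 := by
    simpa [Bpf] using hb
  exact point_bound (by omega) hab hbc hT hv hp0 (by omega) (by omega)

/-- One side of the self-linked middle degree. -/
lemma middle_side [IsAlgClosed K] {a b e : ℕ} {Q : GI K 3} {f₁ f₂ f₃ : MvPolynomial (Fin 3) K}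
    (habc : a + b = e + 6) (hab : a ≤ b) (hbc : b ≤ e + 2) (hT : Triple Q a b (e + 2) f₁ f₂ f₃)
    (h0 : 0 < Q.hf (e + 3)) (hle : Q.hf (e + 2) ≤ Q.hf (e + 3) + 1) :
    (Q.hf (e + 3) + 1 ≤ Q.hf (e + 2) ∧ Q.hf (e + 2) + 1 ≤ b) ∨
      (a - 2) * b + 1 ≤ Q.hf (e + 2) := by
  obtain ⟨z, hz, hz0, hu'⟩ := exists_coker_form Q (d := e + 2) h0 hle
  change 0 < (Q.addForm z hz).hf (e + 3) at hu'
  have hu : 0 < (Q.addForm z hz).hf (e + 2) := by
    by_contra hn
    have : (Q.addForm z hz).hf (e + 3) = 0 :=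
      (Q.addForm z hz).hf_eq_zero_succ (d := e + 2) (by omega)
    omega
  have hdec : (Q.addForm z hz).hf (e + 3) + 1 ≤ (Q.addForm z hz).hf (e + 2) :=
    hf_succ_lt (addForm_self hz) hz0
      ((hT.bpf (by omega) hbc le_rfl).mono (Q.le_addForm hz _)) hu
  have s1 : Q.hf (e + 2) = (Q.addForm z hz).hf (e + 2) + (Q.colon z).hf (e + 1) :=
    Q.hf_split hz hz0 (e + 1)
  have s2 : Q.hf (e + 3) = (Q.addForm z hz).hf (e + 3) + (Q.colon z).hf (e + 2) :=
    Q.hf_split hz hz0 (e + 2)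
  rcases Nat.eq_zero_or_pos ((Q.colon z).hf (e + 1)) with hC | hC
  · have hC' : (Q.colon z).hf (e + 2) = 0 := (Q.colon z).hf_eq_zero_succ hC
    have hsm := binary_small (U := Q.addForm z hz) (hT.mono (Q.le_addForm hz)) (by omega) hab
      hbc (by omega) (addForm_self hz) hz0 (le_refl (e + 2))
    left
    omega
  · right
    have hg := grow4 (show a + b = e + 2 + 4 by omega) hab hbc (hT.mono (Q.le_colon hz))
      (e + 1) (by omega)
    rw [show e + 1 + 1 = e + 2 from rfl, show ex (e + 2) (e + 2) = 1 by simp [ex]] at hg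
    rcases hg with h | ⟨v, hv, hcase⟩
    · omega
    rcases hcase with rfl | ⟨hva, hR⟩
    · omega
    obtain ⟨k, rfl⟩ : ∃ k, a = k + 3 := ⟨a - 3, by omega⟩
    have hR' := R_mono b (e + 1) (show k + 1 ≤ e + 1 + 2 - b + v by omega)
    rw [R_tail (by omega)] at hR'
    rw [show k + 3 - 2 = k + 1 by omega, add_one_mul]
    omega

/-- The middle degree `c`, by linkage with itself. -/
lemma middle [IsAlgClosed K] {a b c : ℕ} {Q L : GI K 3}
    {f₁ f₂ f₃ g₁ g₂ g₃ : MvPolynomial (Fin 3) K}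
    (habc : a + b = c + 4) (hab : a ≤ b) (hbc : b ≤ c) (hT : Triple Q a b c f₁ f₂ f₃)
    (hTL : Triple L a b c g₁ g₂ g₃) (h1 : L.hf c + Q.hf (c + 1) + 4 = a * b)
    (h2 : L.hf (c + 1) + Q.hf c + 4 = a * b) :
    Q.hf (c + 1) = 0 ∨ Q.hf c + 4 = a * b ∨ Q.hf (c + 1) + 2 ≤ Q.hf c ∨
      (Q.hf (c + 1) + 1 ≤ Q.hf c ∧ (Q.hf c + 1 ≤ b ∨ L.hf c + 1 ≤ b)) := by
  obtain ⟨e, rfl⟩ : ∃ e, c = e + 2 := ⟨c - 2, by omega⟩
  rw [show e + 2 + 1 = e + 3 from rfl] at *
  by_contra hc
  simp only [not_or, not_and] at hc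
  obtain ⟨h3, h4, h5, h6⟩ := hc
  have sQ := middle_side (by omega) hab hbc hT (by omega) (by omega)
  have sL := middle_side (by omega) hab hbc hTL (by omega) (by omega)
  have ha : (a - 2) * b + 2 * b = a * b := by
    rw [← add_mul]; congr 1; omega
  have : 4 * b ≤ a * b := Nat.mul_le_mul_right b (by omega)
  omega

end Vale.Agent.P200.Ternary
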