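import Vale.Agent.P200.Ternary.Reg
import Mathlib.LinearAlgebra.Eigenspace.Triangularizable
import Mathlib.Algebra.MvPolynomial.Funext

/-!
The growth bound below degree `c` for ideals containing forms of degrees `a, b, c` without a
common zero in three variables, `a + b = c + 3`.
-/

namespace Vale.Agent.P200.Ternary

open MvPolynomial Module Vale.Agent.P200.SmallH2

variable {K : Type*} [Field K]

local instance finiteHomGr (d : ℕ) : Module.Finite K (homogeneousSubmodule (Fin 3) K d) :=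
  Module.Finite.iff_fg.2 (homogeneousSubmodule_fg (Fin 3) K d)

lemma finrank_three (d : ℕ) :
    finrank K (homogeneousSubmodule (Fin 3) K d) = (d + 2).choose 2 := by
  rw [finrank_homogeneous, show 3 + d - 1 = d + 2 by omega, Nat.choose_symm_add]

/-- Linear forms are linear in the point. -/
lemma eval_linear {v : MvPolynomial (Fin 3) K} (hv : v ∈ homogeneousSubmodule (Fin 3) K 1)
    (p : Fin 3 → K) : eval p v = ∑ i, coeff (Finsupp.single i 1) v * p i := by
  have h := GI.linearMap_eq_on_one (f := (aeval p).toLinearMap)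
    (g := ∑ i, (p i) • lcoeff K (Finsupp.single i 1)) (fun i => by
      simp [coeff_X', Finsupp.single_left_inj]) v hv
  simpa [mul_comm] using h

lemma exists_common_zero {u v : MvPolynomial (Fin 3) K} (hu : u ∈ homogeneousSubmodule (Fin 3) K 1)
    (hv : v ∈ homogeneousSubmodule (Fin 3) K 1) :
    ∃ p : Fin 3 → K, p ≠ 0 ∧ eval p u = 0 ∧ eval p v = 0 := by
  let T : (Fin 3 → K) →ₗ[K] (Fin 2 → K) :=
    LinearMap.pi ![∑ i, coeff (Finsupp.single i 1) u • LinearMap.proj i,
      ∑ i, coeff (Finsupp.single i 1) v • LinearMap.proj i]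
  obtain ⟨p, hp, hp0⟩ := Submodule.exists_mem_ne_zero_of_ne_bot
    (LinearMap.ker_ne_bot_of_finrank_lt (f := T) (by simp))
  have h0 := congrFun (LinearMap.mem_ker.1 hp) 0
  have h1 := congrFun (LinearMap.mem_ker.1 hp) 1
  refine ⟨p, hp0, ?_, ?_⟩
  · rw [eval_linear hu]; simpa [T] using h0
  · rw [eval_linear hv]; simpa [T] using h1

lemma eval_eq_zero_of_piece {Q : GI K 3} {e d : ℕ} (hed : e ≤ d) {x : MvPolynomial (Fin 3) K}
    (hx : x ∈ Q.piece e) {p : Fin 3 → K} (hp : ∀ q ∈ Q.piece d, eval p q = 0) (hp0 : p ≠ 0) :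
    eval p x = 0 := by
  obtain ⟨i, hi⟩ := Function.ne_iff.1 hp0
  have h := Q.hom_mul_mem (isHomogeneous_X_pow (R := K) i (d - e)) hx
  rw [show e + (d - e) = d by omega] at h
  have hpi : p i ≠ 0 := hi
  have := hp _ h
  simpa [hpi] using this

lemma bpf_of_le {Q : GI K 3} {e d : ℕ} (hed : e ≤ d) (h : Bpf (Q.piece e)) : Bpf (Q.piece d) :=
  fun p hp => by
    by_contra hp0
    exact hp0 (h p fun _ hx => eval_eq_zero_of_piece hed hx hp hp0)

lemma bpf_linear : Bpf (homogeneousSubmodule (Fin 3) K 1) := fun p hp =>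
  funext fun i => by simpa using hp (X i) (isHomogeneous_X K i)

/-- The subfamily of members vanishing at a point. -/
noncomputable def vanishAt (Q : GI K 3) (p : Fin 3 → K) : GI K 3 where
  piece d := Q.piece d ⊓ LinearMap.ker (aeval p).toLinearMap
  le d := inf_le_left.trans (Q.le d)
  mul_mem := fun hv hx => ⟨Q.mul_mem hv hx.1, by
    have := hx.2
    simp only [SetLike.mem_coe, LinearMap.mem_ker] at this ⊢
    simp only [AlgHom.toLinearMap_apply, map_mul] at this ⊢
    simp [this]⟩

lemma addForm_self {Q : GI K 3} {l : MvPolynomial (Fin 3) K}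
    (hl : l ∈ homogeneousSubmodule (Fin 3) K 1) : l ∈ (Q.addForm l hl).piece 1 :=
  Submodule.mem_sup_right ⟨1, isHomogeneous_one _ _, by simp⟩

lemma addForm_full {Q : GI K 3} {z l : MvPolynomial (Fin 3) K} (hz : z ∈ Q.piece 1)
    (hl : l ∈ homogeneousSubmodule (Fin 3) K 1) (hne : z ≠ 0)
    (hlz : l ∉ Submodule.span K ({z} : Set (MvPolynomial (Fin 3) K))) {p : Fin 3 → K} (hp : p ≠ 0)
    (hzp : eval p z = 0) (hlp : eval p l = 0) {d : ℕ} {g : MvPolynomial (Fin 3) K}
    (hg : g ∈ Q.piece d) (hgp : eval p g ≠ 0) : (Q.addForm l hl).hf d = 0 := by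
  classical
  set Q' := Q.addForm l hl
  obtain ⟨i, hi⟩ := Function.ne_iff.1 hp
  set w : MvPolynomial (Fin 3) K := (p i)⁻¹ • X i with hwdef
  have hw : w ∈ homogeneousSubmodule (Fin 3) K 1 := Submodule.smul_mem _ _ (isHomogeneous_X K i)
  have hwp : eval p w = 1 := by
    simpa [hwdef, smul_eq_C_mul] using inv_mul_cancel₀ (show p i ≠ 0 from hi)
  set ev := ((aeval p).toLinearMap).comp (homogeneousSubmodule (Fin 3) K 1).subtype
  set E := (LinearMap.ker ev).map (homogeneousSubmodule (Fin 3) K 1).subtype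
  have hE2 : finrank K E ≤ 2 := by
    have h1 := ev.finrank_range_add_finrank_ker
    have h2 : finrank K (LinearMap.range ev) ≠ 0 := fun h0 => by
      have h3 : LinearMap.range ev = ⊥ := Submodule.finrank_eq_zero.1 h0
      have h4 := LinearMap.range_eq_bot.1 h3
      have h5 := LinearMap.congr_fun h4 ⟨w, hw⟩
      simp [ev, hwp] at h5
    have h6 : finrank K (homogeneousSubmodule (Fin 3) K 1) = 3 := finrank_homogeneous_one
    have h7 : finrank K E = finrank K (LinearMap.ker ev) :=
      (Submodule.equivMapOfInjective _ (Submodule.injective_subtype _) _).finrank_eq.symm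
    omega
  have hmemE : ∀ v ∈ homogeneousSubmodule (Fin 3) K 1, eval p v = 0 → v ∈ E := fun v hv h0 =>
    ⟨⟨v, hv⟩, by simpa [ev] using h0, rfl⟩
  have hind : LinearIndependent K ![z, l] := by
    refine (LinearIndependent.pair_iff' hne).2 fun s hs => hlz ?_
    exact Submodule.mem_span_singleton.2 ⟨s, hs⟩
  have hsp : E ≤ Submodule.span K (Set.range ![z, l]) := by
    have hle : Submodule.span K (Set.range ![z, l]) ≤ E := by
      refine Submodule.span_le.2 ?_
      rintro _ ⟨k, rfl⟩
      fin_cases k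
      · exact hmemE z (Q.le 1 hz) hzp
      · exact hmemE l hl hlp
    have h1 := finrank_span_eq_card hind
    exact (Submodule.eq_of_le_of_finrank_le hle (by rw [h1]; simpa using hE2)).ge
  have hEQ : E ≤ Q'.piece 1 := hsp.trans (Submodule.span_le.2 (by
    rintro _ ⟨k, rfl⟩
    fin_cases k
    · exact Q.le_addForm hl 1 hz
    · exact addForm_self hl))
  have hkey : ∀ k, ∀ x ∈ homogeneousSubmodule (Fin 3) K k, x - eval p x • w ^ k ∈ Q'.piece k := by
    intro k
    induction k with
    | zero =>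
      intro x hx
      rw [homogeneousSubmodule_zero, Submodule.mem_one] at hx
      obtain ⟨r, rfl⟩ := hx
      simp [smul_eq_C_mul]
    | succ k ih =>
      intro x hx
      rw [homogeneous_succ] at hx
      refine Submodule.mul_induction_on hx (fun v hv y hy => ?_) fun u v hu hv => ?_
      · have hv' : v - eval p v • w ∈ Q'.piece 1 := hEQ (hmemE _ (Submodule.sub_mem _ hv
          (Submodule.smul_mem _ _ hw)) (by simp [smul_eq_C_mul, hwp]))
        have e : v * y - eval p (v * y) • w ^ (k + 1) =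
            y * (v - eval p v • w) + (eval p v • w) * (y - eval p y • w ^ k) := by
          simp only [map_mul, smul_eq_C_mul]
          ring
        rw [e]
        refine Submodule.add_mem _ ?_ (Q'.mul_mem (Submodule.smul_mem _ _ hw) (ih y hy))
        have := Q'.hom_mul_mem hy hv'
        rwa [add_comm] at this
      · rw [map_add, add_smul, add_sub_add_comm]
        exact Submodule.add_mem _ hu hv
  rw [GI.hf_eq_zero_iff]
  intro x hx
  have hgQ : g ∈ Q'.piece d := Q.le_addForm hl d hg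
  have hwd : w ^ d ∈ Q'.piece d := by
    have h := Submodule.sub_mem _ hgQ (hkey d g (Q.le d hg))
    rw [sub_sub_cancel] at h
    have := Submodule.smul_mem _ (eval p g)⁻¹ h
    rwa [smul_smul, inv_mul_cancel₀ hgp, one_smul] at this
  have := Submodule.add_mem _ (hkey d x hx) (Submodule.smul_mem _ (eval p x) hwd)
  simpa using this

lemma hf_succ_eq_colon {Q : GI K 3} {z l : MvPolynomial (Fin 3) K} (hz : z ∈ Q.piece 1)
    (hl : l ∈ homogeneousSubmodule (Fin 3) K 1) (hne : z ≠ 0)
    (hlz : l ∉ Submodule.span K ({z} : Set (MvPolynomial (Fin 3) K))) {p : Fin 3 → K} (hp : p ≠ 0)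
    (hzp : eval p z = 0) (hlp : eval p l = 0) {d : ℕ} {g : MvPolynomial (Fin 3) K}
    (hg : g ∈ Q.piece d) (hgp : eval p g ≠ 0) :
    Q.hf (d + 1) = (Q.colon l).hf d := by
  have hl0 : l ≠ 0 := fun h => hlz (by rw [h]; exact Submodule.zero_mem _)
  rw [Q.hf_split hl hl0 d, (Q.addForm l hl).hf_eq_zero_succ
    (addForm_full hz hl hne hlz hp hzp hlp hg hgp), zero_add]

lemma exists_form_at {z : MvPolynomial (Fin 3) K} (p : Fin 3 → K) :
    ∃ l ∈ homogeneousSubmodule (Fin 3) K 1,
      l ∉ Submodule.span K ({z} : Set (MvPolynomial (Fin 3) K)) ∧ eval p l = 0 := by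
  set ev := ((aeval p).toLinearMap).comp (homogeneousSubmodule (Fin 3) K 1).subtype
  set E := (LinearMap.ker ev).map (homogeneousSubmodule (Fin 3) K 1).subtype
  have h1 := ev.finrank_range_add_finrank_ker
  have h2 : finrank K (LinearMap.range ev) ≤ 1 :=
    (Submodule.finrank_le _).trans (by simp)
  have h3 : finrank K (homogeneousSubmodule (Fin 3) K 1) = 3 := finrank_homogeneous_one
  have h7 : finrank K E = finrank K (LinearMap.ker ev) :=
    (Submodule.equivMapOfInjective _ (Submodule.injective_subtype _) _).finrank_eq.symm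
  by_contra hc
  push Not at hc
  have hle : E ≤ Submodule.span K {z} := by
    rintro _ ⟨x, hx, rfl⟩
    by_contra hn
    exact hc _ x.2 hn (by simpa [ev] using hx)
  haveI : FiniteDimensional K (Submodule.span K ({z} : Set (MvPolynomial (Fin 3) K))) :=
    FiniteDimensional.span_of_finite K (Set.finite_singleton z)
  have h4 := Submodule.finrank_mono hle
  have h5 : finrank K (Submodule.span K ({z} : Set (MvPolynomial (Fin 3) K))) ≤ 1 :=
    (finrank_span_le_card _).trans (by simp)
  omega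

/-- Binary quotients do not grow once some form is present. -/
lemma hf_succ_le [Infinite K] {Q : GI K 3} {z : MvPolynomial (Fin 3) K} (hz : z ∈ Q.piece 1)
    (hne : z ≠ 0) {d : ℕ} (hd : Q.hf d ≤ d) : Q.hf (d + 1) ≤ Q.hf d := by
  classical
  rcases Nat.eq_zero_or_pos d with rfl | hd1
  · rw [Q.hf_eq_zero_succ (by omega)]; exact Nat.zero_le _
  obtain ⟨k, hk⟩ : ∃ k, coeff (Finsupp.single k 1) z ≠ 0 := by
    by_contra hn
    push Not at hn
    refine hne (MvPolynomial.funext fun p => ?_)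
    rw [eval_linear (Q.le 1 hz)]
    simp [hn]
  set α := coeff (Finsupp.single k 1) z
  let φ : MvPolynomial (Fin 3) K →ₐ[K] MvPolynomial (Fin 3) K :=
    aeval fun i => X i - C (if i = k then α⁻¹ else 0) * z
  have hφz : φ z = 0 := by
    have h := GI.linearMap_eq_on_one (f := φ.toLinearMap)
      (g := LinearMap.id - (lcoeff K (Finsupp.single k 1)).smulRight (α⁻¹ • z)) (fun i => by
        simp [φ, smul_eq_C_mul, coeff_X', Finsupp.single_left_inj]
        split_ifs <;> simp [mul_comm]) z (Q.le 1 hz)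
    simpa [smul_smul, mul_inv_cancel₀ hk, α] using h
  obtain ⟨g, hg, hgz⟩ : ∃ g ∈ Q.piece d, g ∉ Ideal.span {z} := by
    by_contra hn
    push Not at hn
    have hle : Q.piece d ≤ (homogeneousSubmodule (Fin 3) K (d - 1)).map (LinearMap.mulLeft K z) := by
      intro g hg
      obtain ⟨w, hw⟩ := Ideal.mem_span_singleton'.1 (hn g hg)
      refine ⟨homogeneousComponent (d - 1) w, homogeneousComponent_mem _ _, ?_⟩
      show z * _ = g
      rw [← homogeneousComponent_mul (Q.le 1 hz : z.IsHomogeneous 1), mul_comm, hw,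
        show 1 + (d - 1) = d by omega]
      exact homogeneousComponent_eq_self (Q.le d hg)
    have h1 := (Submodule.finrank_mono hle).trans (Submodule.finrank_map_le _ _)
    have h2 := Q.hf_add d
    rw [finrank_three] at h1 h2
    rw [show d - 1 + 2 = d + 1 by omega] at h1
    have h3 : (d + 2).choose 2 = d + 1 + (d + 1).choose 2 := by
      rw [Nat.choose_succ_succ', Nat.choose_one_right]
    omega
  have hmod : Ideal.Quotient.mk (Ideal.span {z}) (φ g) = Ideal.Quotient.mk (Ideal.span {z}) g := by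
    have : (Ideal.Quotient.mkₐ K (Ideal.span {z})).comp φ = Ideal.Quotient.mkₐ K (Ideal.span {z}) :=
      algHom_ext fun i => by
        simp [φ, Ideal.Quotient.eq_zero_iff_mem.2 (Ideal.mem_span_singleton_self z)]
    exact AlgHom.congr_fun this g
  have hφg : φ g ≠ 0 := fun h0 => hgz (Ideal.Quotient.eq_zero_iff_mem.1 (by rw [← hmod, h0, map_zero]))
  obtain ⟨q, hq⟩ : ∃ q, eval q (φ g) ≠ 0 := by
    by_contra hn
    push Not at hn
    exact hφg (MvPolynomial.funext fun q => by simpa using hn q)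
  set p : Fin 3 → K := fun i => eval q (φ (X i))
  have hev : ∀ f, eval p f = eval q (φ f) := fun f => by
    show aeval p f = aeval q (φ f)
    rw [← AlgHom.comp_apply]
    congr 1
    exact algHom_ext fun i => by simp [p]
  have hgp : eval p g ≠ 0 := by rwa [hev]
  have hp : p ≠ 0 := fun h => hgp (by
    rw [h, eval_zero]
    exact (Q.le d hg : g.IsHomogeneous d).coeff_eq_zero (by simp; omega))
  obtain ⟨l, hl, hlz, hlp⟩ := exists_form_at (z := z) p
  rw [hf_succ_eq_colon hz hl hne hlz hp (by rw [hev, hφz, map_zero]) hlp hg hgp]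
  exact GI.hf_mono (Q := Q) (Q' := Q.colon l) (Q.le_colon hl d)

/-- If multiplication does not increase the dimension, some combination of two linear forms
kills a class. -/
lemma exists_kill [IsAlgClosed K] (Q : GI K 3) {d : ℕ} (hh : Q.hf (d + 1) ≤ Q.hf d)
    (h0 : 0 < Q.hf d) {l₁ l₂ : MvPolynomial (Fin 3) K}
    (h₁ : l₁ ∈ homogeneousSubmodule (Fin 3) K 1) (h₂ : l₂ ∈ homogeneousSubmodule (Fin 3) K 1) :
    ∃ x ∈ homogeneousSubmodule (Fin 3) K d, x ∉ Q.piece d ∧ ∃ s t : K, (s ≠ 0 ∨ t ≠ 0) ∧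
      (s • l₁ + t • l₂) * x ∈ Q.piece (d + 1) := by
  classical
  by_contra hc
  push Not at hc
  obtain ⟨W, hW⟩ := exists_isCompl (Q.piece d)
  set C₀ := W ⊓ homogeneousSubmodule (Fin 3) K d
  haveI : Module.Finite K C₀ := Submodule.finiteDimensional_of_le inf_le_right
  have hsup : Q.piece d ⊔ C₀ = homogeneousSubmodule (Fin 3) K d := by
    rw [← sup_inf_assoc_of_le W (Q.le d), hW.sup_eq_top, top_inf_eq]
  have hinf : Q.piece d ⊓ C₀ = ⊥ := (hW.disjoint.mono_right inf_le_left).eq_bot
  have hCr : finrank K C₀ = Q.hf d := by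
    have h1 := Submodule.finrank_sup_add_finrank_inf_eq (Q.piece d) C₀
    rw [hsup, hinf, finrank_bot, add_zero] at h1
    have := Q.hf_add d
    omega
  set M := MvPolynomial (Fin 3) K ⧸ Q.piece (d + 1)
  let T : MvPolynomial (Fin 3) K → (C₀ →ₗ[K] M) := fun l =>
    (Q.piece (d + 1)).mkQ.comp ((LinearMap.mulLeft K l).comp C₀.subtype)
  set Wi := (homogeneousSubmodule (Fin 3) K (d + 1)).map (Q.piece (d + 1)).mkQ
  have hWi : finrank K Wi ≤ Q.hf (d + 1) := by
    have h1 := ((Q.piece (d + 1)).mkQ.domRestrict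
      (homogeneousSubmodule (Fin 3) K (d + 1))).finrank_range_add_finrank_ker
    have h2 : LinearMap.range ((Q.piece (d + 1)).mkQ.domRestrict
        (homogeneousSubmodule (Fin 3) K (d + 1))) = Wi := by
      rw [LinearMap.domRestrict, LinearMap.range_comp, Submodule.range_subtype]
    have h3 : LinearMap.ker ((Q.piece (d + 1)).mkQ.domRestrict
        (homogeneousSubmodule (Fin 3) K (d + 1))) =
        (Q.piece (d + 1)).comap (homogeneousSubmodule (Fin 3) K (d + 1)).subtype := by
      rw [LinearMap.domRestrict, LinearMap.ker_comp, Submodule.ker_mkQ]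
    rw [h2, h3, (Submodule.comapSubtypeEquivOfLe (Q.le (d + 1))).finrank_eq] at h1
    have := Q.hf_add (d + 1)
    omega
  have hT : ∀ l ∈ homogeneousSubmodule (Fin 3) K 1, LinearMap.range (T l) ≤ Wi := by
    rintro l hl _ ⟨x, rfl⟩
    exact ⟨l * x.1, by rw [add_comm]; exact mul_mem_homogeneous hl x.2.2, rfl⟩
  have hinj : ∀ s t : K, (s ≠ 0 ∨ t ≠ 0) → ∀ x : C₀, T (s • l₁ + t • l₂) x = 0 → x = 0 := by
    intro s t hst x hx
    by_contra hx0
    refine hc x.1 x.2.2 (fun hQ => hx0 ?_) s t hst ((Submodule.Quotient.mk_eq_zero _).1 hx)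
    have : x.1 ∈ Q.piece d ⊓ C₀ := ⟨hQ, x.2⟩
    rw [hinf, Submodule.mem_bot] at this
    exact Subtype.ext this
  have hi1 : Function.Injective (T l₁) := LinearMap.ker_eq_bot.1 (LinearMap.ker_eq_bot'.2 fun x hx =>
    hinj 1 0 (Or.inl one_ne_zero) x (by simpa using hx))
  haveI : Module.Finite K Wi := Module.Finite.map _ _
  have hr : LinearMap.range (T l₁) = Wi := Submodule.eq_of_le_of_finrank_le (hT l₁ h₁) (by
    rw [LinearMap.finrank_range_of_inj hi1]; exact (hWi.trans hh).trans hCr.ge)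
  let e := LinearEquiv.ofInjective (T l₁) hi1
  let E : Module.End K C₀ := e.symm.toLinearMap.comp
    ((T l₂).codRestrict (LinearMap.range (T l₁)) fun x => hr ▸ hT l₂ h₂ ⟨x, rfl⟩)
  haveI : Nontrivial C₀ := Module.nontrivial_of_finrank_pos (R := K) (by omega)
  obtain ⟨μ, hμ⟩ := Module.End.exists_eigenvalue E
  obtain ⟨x, hx⟩ := hμ.exists_hasEigenvector
  have hEx : T l₂ x = μ • T l₁ x := by
    have h := congrArg (fun y => ((e y : LinearMap.range (T l₁)) : M)) hx.apply_eq_smul
    simpa [E, e, LinearEquiv.ofInjective_apply] using h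
  refine hx.2 (hinj (-μ) 1 (Or.inr one_ne_zero) x ?_)
  have : T ((-μ) • l₁ + (1 : K) • l₂) x = T l₂ x - μ • T l₁ x := by
    simp [T, add_mul, sub_eq_neg_add]
  rw [this, hEx, sub_self]

/-- Strict decrease of a binary quotient without base points. -/
lemma hf_succ_lt [IsAlgClosed K] {Q : GI K 3} {z : MvPolynomial (Fin 3) K} (hz : z ∈ Q.piece 1)
    (hne : z ≠ 0) {d : ℕ} (hb : Bpf (Q.piece d)) (h0 : 0 < Q.hf d) :
    Q.hf (d + 1) + 1 ≤ Q.hf d := by
  have hle : ∀ l ∈ homogeneousSubmodule (Fin 3) K 1,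
      l ∉ Submodule.span K ({z} : Set (MvPolynomial (Fin 3) K)) →
        Q.hf (d + 1) = (Q.colon l).hf d := by
    intro l hl hlz
    obtain ⟨p, hp, hpz, hpl⟩ := exists_common_zero (Q.le 1 hz) hl
    obtain ⟨g, hg, hgp⟩ : ∃ g ∈ Q.piece d, eval p g ≠ 0 := by
      by_contra hn
      push Not at hn
      exact hp (hb p hn)
    exact hf_succ_eq_colon hz hl hne hlz hp hpz hpl hg hgp
  obtain ⟨p, hp, hpz, -⟩ := exists_common_zero (Q.le 1 hz) (Q.le 1 hz)
  obtain ⟨l₁, h₁, h₁z, h₁p⟩ := exists_form_at (z := z) p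
  obtain ⟨i, hi⟩ := Function.ne_iff.1 hp
  have hX : (X i : MvPolynomial (Fin 3) K) ∈ homogeneousSubmodule (Fin 3) K 1 := isHomogeneous_X K i
  by_contra hlt
  have h1 := hle l₁ h₁ h₁z
  have h2 := GI.hf_mono (Q := Q) (Q' := Q.colon l₁) (Q.le_colon h₁ d)
  obtain ⟨x, hx, hxQ, s, t, hst, hk⟩ := exists_kill Q (d := d) (by omega) h0 h₁ hX
  have hl : s • l₁ + t • X i ∈ homogeneousSubmodule (Fin 3) K 1 :=
    Submodule.add_mem _ (Submodule.smul_mem _ _ h₁) (Submodule.smul_mem _ _ hX)
  have hlz : s • l₁ + t • X i ∉ Submodule.span K ({z} : Set (MvPolynomial (Fin 3) K)) := by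
    intro hm
    obtain ⟨r, hr⟩ := Submodule.mem_span_singleton.1 hm
    have := congrArg (eval p) hr
    have hpi : p i ≠ 0 := hi
    simp [smul_eq_C_mul, h₁p, hpz, hpi] at this
    subst this
    rw [zero_smul, add_zero] at hr
    have hs : s ≠ 0 := by simpa using hst
    exact h₁z (Submodule.mem_span_singleton.2 ⟨s⁻¹ * r, by rw [mul_smul, hr, inv_smul_smul₀ hs]⟩)
  have h3 := hle _ hl hlz
  have hlt' : (Q.colon (s • l₁ + t • X i)).hf d < Q.hf d := by
    have h4 := Submodule.finrank_lt_finrank_of_lt (lt_of_le_of_ne (Q.le_colon hl d) fun e =>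
      hxQ (by rw [e]; exact ⟨hx, hk⟩))
    have := Q.hf_add d
    have := (Q.colon (s • l₁ + t • X i)).hf_add d
    omega
  omega

/-- Strict decrease when the next degree has no base point. -/
lemma hf_succ_lt' [IsAlgClosed K] {Q : GI K 3} {z : MvPolynomial (Fin 3) K} (hz : z ∈ Q.piece 1)
    (hne : z ≠ 0) {d : ℕ} (hd : 1 ≤ d) (hud : Q.hf d ≤ d) (hb : Bpf (Q.piece (d + 1)))
    (h0 : 0 < Q.hf (d + 1)) : Q.hf (d + 1) + 1 ≤ Q.hf d := by
  by_cases hbd : Bpf (Q.piece d)
  · refine hf_succ_lt hz hne hbd ?_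
    by_contra hn
    have := Q.hf_eq_zero_succ (d := d) (by omega)
    omega
  obtain ⟨p, hv, hp⟩ : ∃ p, (∀ q ∈ Q.piece d, eval p q = 0) ∧ p ≠ 0 := by
    simpa [Bpf] using hbd
  have hzp := eval_eq_zero_of_piece hd hz hv hp
  obtain ⟨g, hg, hgp⟩ : ∃ g ∈ Q.piece (d + 1), eval p g ≠ 0 := by
    by_contra hn
    push Not at hn
    exact hp (hb p hn)
  obtain ⟨l, hl, hlz, hlp⟩ := exists_form_at (z := z) p
  have hl0 : l ≠ 0 := fun h => hlz (by rw [h]; exact Submodule.zero_mem _)
  have h1 : Q.hf (d + 1) = (Q.colon l).hf d := by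
    rw [Q.hf_split hl hl0 d, addForm_full hz hl hne hlz hp hzp hlp hg hgp, zero_add]
  obtain ⟨e, rfl⟩ : ∃ e, d = e + 1 := ⟨d - 1, by omega⟩
  have h2 := Q.hf_split hl hl0 e
  have h3 : 0 < (Q.addForm l hl).hf (e + 1) := by
    rw [Nat.pos_iff_ne_zero, Ne, GI.hf_eq_zero_iff]
    intro hfull
    obtain ⟨i, hi⟩ := Function.ne_iff.1 hp
    have hm := hfull (isHomogeneous_X_pow (R := K) i (e + 1))
    obtain ⟨u, hu, _, ⟨w, -, rfl⟩, he⟩ := Submodule.mem_sup.1 hm
    have hpi : p i ≠ 0 := hi
    have := congrArg (eval p) he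
    simp [hv u hu, hlp, pow_succ, hpi] at this
  have h4 := hf_succ_le (Q := Q.colon l) (Q.le_colon hl 1 hz) hne (d := e) (by omega)
  omega

/-- Two forms as a complete intersection inside `Q`. -/
structure Two (Q : GI K 3) (a b : ℕ) (f₁ f₂ : MvPolynomial (Fin 3) K) : Prop where
  left : f₁ ∈ Q.piece a
  right : f₂ ∈ Q.piece b
  pair : Pair Q a b (Ideal.span {f₁} ⊔ Ideal.span {f₂})

lemma Pair.mono {Q Q' : GI K 3} {a b : ℕ} {J : Ideal (MvPolynomial (Fin 3) K)} (h : Pair Q a b J)
    (hQ : ∀ d, Q.piece d ≤ Q'.piece d) : Pair Q' a b J :=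
  ⟨h.toSat.mono hQ, h.exact0, h.exact1⟩

lemma Two.mono {Q Q' : GI K 3} {a b : ℕ} {f₁ f₂ : MvPolynomial (Fin 3) K} (h : Two Q a b f₁ f₂)
    (hQ : ∀ d, Q.piece d ≤ Q'.piece d) : Two Q' a b f₁ f₂ :=
  ⟨hQ _ h.left, hQ _ h.right, h.pair.mono hQ⟩

/-- An ideal of a complete intersection with finite length has no common zero. -/
lemma Sat.no_zero {Q : GI K 3} {H : ℕ → ℕ} {J : Ideal (MvPolynomial (Fin 3) K)} (h : Sat Q H J)
    {N : ℕ} (hN : H N = 0) {p : Fin 3 → K} (hp : J ≤ RingHom.ker (eval p)) : p = 0 := by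
  funext i
  have hd := h.dims N
  rw [hN, add_zero] at hd
  have he : part J N = homogeneousSubmodule (Fin 3) K N :=
    Submodule.eq_of_le_of_finrank_le (part_le J _) hd.ge
  have h1 : (X i ^ N : MvPolynomial (Fin 3) K) ∈ part J N := by
    rw [he]; exact isHomogeneous_X_pow i N
  have h2 := hp h1.2
  simp at h2
  exact h2.1

lemma R_zero (b : ℕ) (hb : 1 ≤ b) : ∀ a, 1 ≤ a → R b 0 a = 1 := by
  intro a ha
  induction a, ha using Nat.le_induction with
  | base => simp [R]; omega
  | succ a ha ih => rw [R_succ, ih]; omega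

lemma Two.exists_form [IsAlgClosed K] {Q : GI K 3} {a b : ℕ} {f₁ f₂ : MvPolynomial (Fin 3) K}
    (h : Two Q a b f₁ f₂) (ha : 1 ≤ a) (hb : 1 ≤ b) :
    ∃ z, ∃ hz : z ∈ homogeneousSubmodule (Fin 3) K 1, z ≠ 0 ∧
      (∀ d, (Q.addForm z hz).hf d ≤ H3 a b 1 d) ∧
      ∀ d, a ≤ d → b ≤ d → Bpf ((Q.addForm z hz).piece d) := by
  obtain ⟨z, hz, hreg⟩ := exists_regular' h.pair.closed h.pair.exact0 _ bpf_linear
  have hz0 : z ≠ 0 := fun h0 => by
    have h1 : (1 : MvPolynomial (Fin 3) K) ∈ Ideal.span {f₁} ⊔ Ideal.span {f₂} :=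
      hreg 1 (by simp [h0])
    have h3 := h.pair.dims 0
    have h4 : homogeneousSubmodule (Fin 3) K 0 ≤ part (Ideal.span {f₁} ⊔ Ideal.span {f₂}) 0 :=
      fun q hq => ⟨hq, by
        have := Ideal.mul_mem_left _ q h1
        rw [mul_one] at this
        exact this⟩
    have h5 := Submodule.finrank_mono h4
    rw [R_zero b hb a ha] at h3
    omega
  have hS : Sat (Q.addForm z hz) (H3 a b 1) (Ideal.span {f₁} ⊔ Ideal.span {f₂} ⊔ Ideal.span {z}) :=
    (h.pair.toSat.mono (Q.le_addForm hz)).succ (addForm_self hz) hreg hz0 fun d => by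
      unfold H3
      split
      · have := R_le b d a (show d - 1 ≤ d by omega)
        omega
      · omega
  refine ⟨z, hz, hz0, hS.hf_le, fun d had hbd p hp => ?_⟩
  by_contra hp0
  have hN : H3 a b 1 (a + b + 1) = 0 := by
    unfold H3
    rw [if_pos (by omega), R_eq_mul b _ a (by omega), R_eq_mul b _ a (by omega)]
    omega
  refine hp0 (hS.no_zero hN ?_)
  simp only [sup_le_iff, Ideal.span_singleton_le_iff_mem, RingHom.mem_ker]
  exact ⟨⟨eval_eq_zero_of_piece had (Q.le_addForm hz _ h.left) hp hp0,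
    eval_eq_zero_of_piece hbd (Q.le_addForm hz _ h.right) hp hp0⟩,
    eval_eq_zero_of_piece (by omega) (addForm_self hz) hp hp0⟩

/-- Growth bound for two forms in three variables. -/
theorem two_bound [IsAlgClosed K] : ∀ (d : ℕ) (Q : GI K 3) {a b : ℕ}
    {f₁ f₂ : MvPolynomial (Fin 3) K}, 2 ≤ a → a ≤ b → Two Q a b f₁ f₂ → ∀ v, 1 ≤ v →
      Q.hf d + v ≤ Q.hf (d + 1) → v + (d + 2 - b) ≤ a ∧ R b d (d + 2 - b + v) ≤ Q.hf d := by
  intro d
  induction d with
  | zero =>
    intro Q a b f₁ f₂ ha hab hT v hv hle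
    have h0 : 0 < Q.hf 0 := by
      by_contra hn
      have := Q.hf_eq_zero_succ (d := 0) (by omega)
      omega
    have h0' := Q.hf_zero_le
    have h1 := Q.hf_add 1
    rw [finrank_homogeneous_one] at h1
    rw [show 0 + 2 - b = 0 by omega, zero_add, R_zero b (by omega) v hv]
    simp only [zero_add] at hle
    omega
  | succ e ih =>
    intro Q a b f₁ f₂ ha hab hT v hv hle
    obtain ⟨z, hz, hz0, hU, hbpf⟩ := hT.exists_form (by omega) (by omega)
    have s1 := Q.hf_split hz hz0 e
    have s2 := Q.hf_split hz hz0 (e + 1)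
    set U := Q.addForm z hz
    have hmono : (Q.colon z).hf (e + 1) ≤ Q.hf (e + 1) :=
      GI.hf_mono (Q := Q) (Q' := Q.colon z) (Q.le_colon hz _)
    have hzU : z ∈ U.piece 1 := addForm_self hz
    have hbig : ∀ m, U.hf m ≤ m + 1 := fun m => by
      rcases Nat.eq_zero_or_pos m with rfl | hm
      · exact U.hf_zero_le
      obtain ⟨k, rfl⟩ : ∃ k, m = k + 1 := ⟨m - 1, by omega⟩
      have h1 : (homogeneousSubmodule (Fin 3) K k).map (LinearMap.mulLeft K z) ≤ U.piece (k + 1) :=
        le_sup_right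
      have h2 := Submodule.finrank_mono h1
      rw [← (Submodule.equivMapOfInjective _ (fun x y h => mul_left_cancel₀ hz0 h) _).finrank_eq,
        finrank_three] at h2
      have h3 := U.hf_add (k + 1)
      rw [finrank_three, show k + 1 + 2 = (k + 2) + 1 by omega, Nat.choose_succ_succ',
        Nat.choose_one_right] at h3
      change _ ≤ _
      simp only [show (1 + 1 : ℕ) = 2 from rfl] at h3
      omega
    have hH : ∀ m, a ≤ m + 2 → U.hf (m + 1) + (m + 2 - b) ≤ a ∨ U.hf (m + 1) = 0 := by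
      intro m hm
      have h1 := hU (m + 1)
      simp only [H3, if_pos (show 1 ≤ m + 1 by omega), Nat.add_sub_cancel,
        R_succ_deg b m a hm] at h1
      omega
    have hpos : 0 < U.hf (e + 1 + 1) := by omega
    have hua : U.hf (e + 1 + 1) ≤ a := by
      rcases Nat.lt_or_ge (e + 1 + 2) a with h | h
      · have := hbig (e + 1 + 1); omega
      · have := hH (e + 1) h; omega
    rcases Nat.lt_or_ge (e + 1 + 1) b with hcase | hcase
    · rw [show e + 1 + 2 - b = 0 by omega, zero_add]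
      refine ⟨by omega, ?_⟩
      by_cases hdu : U.hf (e + 1) ≤ e + 1
      · have hu := hf_succ_le hzU hz0 hdu
        have hi := (ih (Q.colon z) ha hab (hT.mono (Q.le_colon hz)) v hv (by omega)).2
        rw [show e + 2 - b = 0 by omega, zero_add] at hi
        have hs : R b (e + 1) v ≤ R b e v + v := by
          unfold R
          have hsum : ∑ t ∈ Finset.range v, min (e + 1 + 1 - t) b ≤
              ∑ t ∈ Finset.range v, (min (e + 1 - t) b + 1) :=
            Finset.sum_le_sum fun t _ => by omega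
          rw [Finset.sum_add_distrib, Finset.sum_const, Finset.card_range, smul_eq_mul,
            mul_one] at hsum
          exact hsum
        omega
      · have := hbig (e + 1)
        have := hbig (e + 1 + 1)
        obtain ⟨w, rfl⟩ : ∃ w, v = w + 1 := ⟨v - 1, by omega⟩
        rw [R_shift]
        rcases Nat.eq_zero_or_pos w with rfl | hw
        · simp [R]; omega
        · have hi := (ih (Q.colon z) ha hab (hT.mono (Q.le_colon hz)) w hw (by omega)).2
          rw [show e + 2 - b = 0 by omega, zero_add] at hi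
          omega
    · have hlt : U.hf (e + 1 + 1) + 1 ≤ U.hf (e + 1) := by
        by_cases hud : U.hf (e + 1) ≤ e + 1
        · exact hf_succ_lt' hzU hz0 (by omega) hud (hbpf _ (by omega) hcase) hpos
        · have := hH (e + 1) (by omega); omega
      have hU1 : v + (e + 1 + 2 - b) ≤ a := by
        have := hH (e + 1) (by omega); omega
      refine ⟨hU1, ?_⟩
      have hi := (ih (Q.colon z) ha hab (hT.mono (Q.le_colon hz)) (v + 1) (by omega) (by omega)).2
      rw [show e + 2 - b + (v + 1) = e + 1 + 2 - b + v by omega] at hi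
      rw [R_succ_deg b e _ (by omega)]
      omega

end Vale.Agent.P200.Ternary
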