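import Vale.Agent.P200.SmallH2.Hopf

/-!
Hopf's inequality for bilinear maps without zero divisors over an algebraically closed field.
-/

namespace Vale.Agent.P200.Ternary

open MvPolynomial Module Vale.Agent.P200.SmallH2

variable {K : Type*} [Field K]

/-- A weight detecting the difference of the two degrees in two groups of variables. -/
def balance2 (e f : ℕ) : Fin e ⊕ Fin f → ℤ := Sum.elim (fun _ => 1) (fun _ => -1)

/-- The products of a variable from each group. -/
noncomputable def segre2 (K : Type*) [Field K] (e f : ℕ) :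
    MvPolynomial (Fin e × Fin f) K →ₐ[K] MvPolynomial (Fin e ⊕ Fin f) K :=
  aeval fun ij => X (Sum.inl ij.1) * X (Sum.inr ij.2)

lemma monomial_mem_segre2 {e f : ℕ} (c : K) : ∀ s : Fin e ⊕ Fin f →₀ ℕ,
    Finsupp.weight (balance2 e f) s = 0 → monomial s c ∈ (segre2 K e f).range := by
  intro s
  induction hN : s.degree using Nat.strong_induction_on generalizing s with
  | _ N ih =>
  intro hs
  by_cases h0 : s = 0
  · subst h0
    exact ⟨C c, by simp [segre2, monomial_zero']⟩
  have hw : Finsupp.weight (balance2 e f) s = ∑ v, (s v : ℤ) * balance2 e f v := by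
    rw [Finsupp.weight_apply, Finsupp.sum_fintype _ _ (fun _ => by simp)]
    simp [nsmul_eq_mul]
  rw [hw, Fintype.sum_sum_type] at hs
  simp only [balance2, Sum.elim_inl, Sum.elim_inr, mul_one, mul_neg, Finset.sum_neg_distrib] at hs
  have hpos : (∃ i, s (Sum.inl i) ≠ 0) ∧ ∃ j, s (Sum.inr j) ≠ 0 := by
    by_contra hc
    apply h0
    have hz : (∀ i, s (Sum.inl i) = 0) ∧ ∀ j, s (Sum.inr j) = 0 := by
      rw [not_and_or] at hc
      push Not at hc
      rcases hc with hc | hc
      · refine ⟨hc, fun j => ?_⟩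
        simp only [hc, Nat.cast_zero, Finset.sum_const_zero, zero_add, neg_eq_zero] at hs
        exact_mod_cast (Finset.sum_eq_zero_iff_of_nonneg fun i _ => by positivity).1 hs j (Finset.mem_univ _)
      · refine ⟨fun i => ?_, hc⟩
        simp only [hc, Nat.cast_zero, Finset.sum_const_zero, neg_zero, add_zero] at hs
        exact_mod_cast (Finset.sum_eq_zero_iff_of_nonneg fun i _ => by positivity).1 hs i (Finset.mem_univ _)
    exact Finsupp.ext fun v => by cases v <;> simp [hz.1, hz.2]
  obtain ⟨⟨i, hi⟩, j, hj⟩ := hpos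
  set d := Finsupp.single (Sum.inl i : Fin e ⊕ Fin f) 1 + Finsupp.single (Sum.inr j) 1
  have hd : d ≤ s := fun v => by
    rcases eq_or_ne v (Sum.inl i) with rfl | h1
    · simp [d, Nat.one_le_iff_ne_zero, hi]
    · rcases eq_or_ne v (Sum.inr j) with rfl | h2
      · simp [d, Nat.one_le_iff_ne_zero, hj]
      · simp [d, Finsupp.single_apply, h1.symm, h2.symm]
  obtain ⟨r, hr⟩ : ∃ r, s = d + r := ⟨s - d, (add_tsub_cancel_of_le hd).symm⟩
  have hwr : Finsupp.weight (balance2 e f) r = 0 := by
    have h2 : Finsupp.weight (balance2 e f) d = 0 := by simp [d, balance2, Finsupp.weight_single]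
    have h1 : Finsupp.weight (balance2 e f) s = 0 := by
      rw [hw, Fintype.sum_sum_type]
      simpa [balance2] using hs
    rw [hr, map_add, h2, zero_add] at h1
    exact h1
  have hdeg : r.degree < N := by
    rw [← hN, hr, map_add]
    simp [d, Finsupp.degree_single]
  obtain ⟨g, hg⟩ := ih _ hdeg r rfl hwr
  refine ⟨X (i, j) * g, ?_⟩
  have hX : segre2 K e f (X (i, j)) = monomial d 1 := by
    rw [segre2, aeval_X]
    simp [d, X, monomial_mul]
  have hg' : segre2 K e f g = monomial r c := hg
  show segre2 K e f (X (i, j) * g) = _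
  rw [map_mul, hX, hg', monomial_mul, hr, one_mul]

lemma mem_segre2_of_balanced {e f : ℕ} {q : MvPolynomial (Fin e ⊕ Fin f) K}
    (h : IsWeightedHomogeneous (balance2 e f) q 0) : q ∈ (segre2 K e f).range := by
  rw [as_sum q]
  exact Subalgebra.sum_mem _ fun s hs => monomial_mem_segre2 _ s (h (mem_support_iff.1 hs))

/-- A bilinear map `K^e × K^f → K^m` without zero divisors has `e + f ≤ m + 1`. -/
theorem hopf [IsAlgClosed K] {e f m : ℕ} (he : 1 ≤ e) (hf : 1 ≤ f)
    (g : Fin e × Fin f → Fin m → K)
    (hirr : ∀ (x : Fin e → K) (y : Fin f → K),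
      (∀ k, ∑ ij, x ij.1 * y ij.2 * g ij k = 0) → x = 0 ∨ y = 0) : e + f ≤ m + 1 := by
  classical
  let F₀ : Fin m → MvPolynomial (Fin e × Fin f) K := fun k => ∑ ij, C (g ij k) * X ij
  let F : Fin m → MvPolynomial (Fin e ⊕ Fin f) K := fun k => segre2 K e f (F₀ k)
  have hF : ∀ k, F k = ∑ ij : Fin e × Fin f, C (g ij k) * (X (Sum.inl ij.1) * X (Sum.inr ij.2)) :=
    fun k => by simp [F, F₀, segre2]
  have hrad : ∀ i j, (X (Sum.inl i) * X (Sum.inr j) : MvPolynomial (Fin e ⊕ Fin f) K) ∈
      (Ideal.span (Set.range F)).radical := by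
    intro i j
    rw [← vanishingIdeal_zeroLocus_eq_radical (K := K), mem_vanishingIdeal_iff]
    intro p hp
    have h := hirr (fun u => p (Sum.inl u)) (fun u => p (Sum.inr u)) fun k => by
      have := (mem_zeroLocus_iff.1 hp) (F k) (Ideal.subset_span ⟨k, rfl⟩)
      rw [hF] at this
      simp only [map_sum, map_mul, aeval_C, aeval_X, Algebra.algebraMap_self, RingHom.id_apply] at this
      rw [← this]
      exact Finset.sum_congr rfl fun ij _ => by ring
    rcases h with h | h
    · simp [congrFun h i]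
    · simp [congrFun h j]
  -- balanced subring
  let R := (segre2 K e f).toRingHom.range
  let z : Fin e × Fin f → R := fun ij => ⟨segre2 K e f (X ij), X ij, rfl⟩
  let F' : Fin m → R := fun k => ⟨F k, F₀ k, rfl⟩
  have hbalX : ∀ ij : Fin e × Fin f, IsWeightedHomogeneous (balance2 e f)
      (X (Sum.inl ij.1) * X (Sum.inr ij.2) : MvPolynomial (Fin e ⊕ Fin f) K) 0 := fun ij => by
    simpa [balance2] using (isWeightedHomogeneous_X K (balance2 e f) (Sum.inl ij.1)).mul
      (isWeightedHomogeneous_X K (balance2 e f) (Sum.inr ij.2))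
  have hbalF : ∀ k, IsWeightedHomogeneous (balance2 e f) (F k) 0 := fun k => by
    rw [hF]
    refine IsWeightedHomogeneous.sum _ _ _ fun ij _ => ?_
    simpa using (isWeightedHomogeneous_C (balance2 e f) (g ij k)).mul (hbalX ij)
  have hpow : ∀ ij, ∃ N, z ij ^ N ∈ Ideal.span (Set.range F') := by
    intro ij
    obtain ⟨N, hN⟩ := hrad ij.1 ij.2
    obtain ⟨c, hc⟩ := Ideal.mem_span_range_iff_exists_fun.1 hN
    refine ⟨N, Ideal.mem_span_range_iff_exists_fun.2 ⟨fun k => ⟨weightedHomogeneousComponent (balance2 e f) 0 (c k), ?_⟩, ?_⟩⟩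
    · exact mem_segre2_of_balanced (weightedHomogeneousComponent_isWeightedHomogeneous 0 (c k))
    · apply Subtype.ext
      push_cast
      have hlhs : (segre2 K e f (X ij)) ^ N = (X (Sum.inl ij.1) * X (Sum.inr ij.2)) ^ N := by simp [segre2]
      show ∑ k, weightedHomogeneousComponent (balance2 e f) 0 (c k) * F k = (segre2 K e f (X ij)) ^ N
      rw [hlhs]
      have hh : IsWeightedHomogeneous (balance2 e f)
          ((X (Sum.inl ij.1) * X (Sum.inr ij.2) : MvPolynomial (Fin e ⊕ Fin f) K) ^ N) 0 := by
        simpa using (hbalX ij).pow N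
      conv_rhs => rw [← weightedHomogeneousComponent_eq_self hh, ← hc, map_sum]
      refine Finset.sum_congr rfl fun k _ => ?_
      conv_rhs => rw [as_sum (c k), Finset.sum_mul, map_sum]
      conv_lhs => rw [as_sum (c k), map_sum, Finset.sum_mul]
      refine Finset.sum_congr rfl fun s _ => ?_
      have hs := isWeightedHomogeneous_monomial (balance2 e f) s (coeff s (c k)) rfl
      have hsF := hs.mul (hbalF k)
      rw [add_zero] at hsF
      rw [weightedHomogeneousComponent_of_mem hs, weightedHomogeneousComponent_of_mem hsF]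
      split_ifs <;> simp
  -- chain of primes
  let idx : Fin e ⊕ Fin f → ℕ :=
    Sum.elim (fun i => if (i : ℕ) + 1 < e then (i : ℕ) else 3 * (e + f)) (fun j => e - 1 + (j : ℕ))
  let P : ℕ → Ideal R := fun k => RingHom.ker ((kill (K := K) idx k).toRingHom.comp R.subtype)
  have hPz : ∀ k ij, z ij ∈ P k ↔ idx (Sum.inl ij.1) < k ∨ idx (Sum.inr ij.2) < k := by
    intro k ij
    show kill (K := K) idx k (segre2 K e f (X ij)) = 0 ↔ _
    rw [segre2, aeval_X, map_mul, kill_X, kill_X]
    by_cases h1 : idx (Sum.inl ij.1) < k <;> by_cases h2 : idx (Sum.inr ij.2) < k <;>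
      simp [h1, h2, X_ne_zero]
  have hstrict : ∀ k < e + f - 1, P k < P (k + 1) := by
    intro k hk
    refine lt_of_le_of_ne (fun a ha => ?_) fun he' => ?_
    · show kill idx (k + 1) (a : MvPolynomial (Fin e ⊕ Fin f) K) = 0
      rw [← kill_kill idx (Nat.le_succ k), show kill idx k (a : MvPolynomial _ K) = 0 from ha, map_zero]
    · by_cases hk' : k + 1 < e
      · have h1 : z (⟨k, by omega⟩, ⟨0, by omega⟩) ∈ P (k + 1) := (hPz _ _).2 (Or.inl (by simp [idx, hk']))
        rw [← he', hPz] at h1
        simp [idx, hk'] at h1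
        omega
      · have h1 : z (⟨e - 1, by omega⟩, ⟨k - (e - 1), by omega⟩) ∈ P (k + 1) :=
          (hPz _ _).2 (Or.inr (by simp [idx]; omega))
        rw [← he', hPz] at h1
        simp [idx, show ¬ (e - 1 + 1 < e) by omega] at h1
        omega
  have hne : Ideal.span (Set.range F') ≠ ⊤ := by
    intro htop
    have hle : Ideal.span (Set.range F') ≤ P (e + f - 1) := by
      refine Ideal.span_le.2 ?_
      rintro _ ⟨k, rfl⟩
      show kill (K := K) idx (e + f - 1) (F k) = 0
      rw [hF, map_sum]
      refine Finset.sum_eq_zero fun ij _ => ?_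
      have : kill (K := K) idx (e + f - 1) (X (Sum.inr ij.2)) = 0 := by
        rw [kill_X, if_pos (by simp [idx]; omega)]
      simp [this]
    have : (1 : R) ∈ P (e + f - 1) := hle (htop ▸ Submodule.mem_top)
    simp [P] at this
  obtain ⟨P', hP'⟩ := Ideal.nonempty_minimalPrimes hne
  haveI := hP'.1.1
  have hle : P (e + f - 1) ≤ P' := by
    rintro ⟨_, g₀, rfl⟩ hg
    have hk : ∀ q, kill (K := K) idx (e + f - 1) (segre2 K e f q) =
        algebraMap K _ (constantCoeff q) := by
      intro q
      have : (kill (K := K) idx (e + f - 1)).comp (segre2 K e f) = aeval fun _ => 0 :=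
        algHom_ext fun ij => by
          rw [AlgHom.comp_apply, segre2, aeval_X, map_mul, kill_X (v := Sum.inr ij.2),
            if_pos (by simp [idx]; omega), mul_zero, aeval_X]
      rw [← AlgHom.comp_apply, this, aeval_zero']
    have h0 : constantCoeff g₀ = 0 := by
      have hg : kill (K := K) idx (e + f - 1) (segre2 K e f g₀) = 0 := hg
      rw [hk, ← map_zero (algebraMap K (MvPolynomial (Fin e ⊕ Fin f) K))] at hg
      exact FaithfulSMul.algebraMap_injective K _ hg
    have hmap : Ideal.map (segre2 K e f).toRingHom.rangeRestrict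
        (Ideal.span (Set.range X)) ≤ P' := by
      rw [Ideal.map_span]
      refine Ideal.span_le.2 ?_
      rintro _ ⟨_, ⟨ij, rfl⟩, rfl⟩
      obtain ⟨N, hN⟩ := hpow ij
      exact hP'.1.1.mem_of_pow_mem N (hP'.1.2 hN)
    exact hmap (Ideal.mem_map_of_mem _ (mem_span_X_of_constantCoeff h0))
  have h1 := le_height_of_chain P (e + f - 1) (fun k => RingHom.ker_isPrime _) hstrict
  have h2 := (h1.trans (Ideal.height_mono hle)).trans
    (Ideal.height_le_card_of_mem_minimalPrimes_span (Set.finite_range _) hP')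
  have h3 : (Set.range F').ncard ≤ m := by
    rw [← Set.image_univ]
    exact (Set.ncard_image_le Set.finite_univ).trans (by simp)
  have := (Nat.cast_le.1 h2).trans h3
  omega

end Vale.Agent.P200.Ternary
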