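import Vale.Agent.P200.Ternary.Main
import Vale.Agent.P200.Ternary.Hopf

/-!
Linear forms with a kernel or cokernel between adjacent degrees, and bounds for binary quotients.
-/

namespace Vale.Agent.P200.Ternary

open MvPolynomial Module Vale.Agent.P200.SmallH2

variable {K : Type*} [Field K]

local instance finiteHomKill (d : ℕ) : Module.Finite K (homogeneousSubmodule (Fin 3) K d) :=
  Module.Finite.iff_fg.2 (homogeneousSubmodule_fg (Fin 3) K d)

/-- The quotient of the forms of degree `d`. -/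
noncomputable abbrev Quot' (Q : GI K 3) (d : ℕ) : Submodule K (homogeneousSubmodule (Fin 3) K d) :=
  (Q.piece d).comap (homogeneousSubmodule (Fin 3) K d).subtype

lemma finrank_quot (Q : GI K 3) (d : ℕ) :
    finrank K (homogeneousSubmodule (Fin 3) K d ⧸ Quot' Q d) = Q.hf d := by
  have h1 := Submodule.finrank_quotient_add_finrank (Quot' Q d)
  have h2 : finrank K (Quot' Q d) = finrank K (Q.piece d) :=
    (Submodule.comapSubtypeEquivOfLe (Q.le d)).finrank_eq
  have := Q.hf_add d
  omega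

/-- Multiplication by the linear form with coefficients `x` on the forms of degree `d`. -/
noncomputable def mulS (x : Fin 3 → K) (d : ℕ) :
    homogeneousSubmodule (Fin 3) K d →ₗ[K] homogeneousSubmodule (Fin 3) K (d + 1) :=
  ((LinearMap.mulLeft K (∑ i, x i • X i)).comp (homogeneousSubmodule (Fin 3) K d).subtype).codRestrict _
    fun s => by
      rw [add_comm]
      exact mul_mem_homogeneous
        (Submodule.sum_mem _ fun i _ => Submodule.smul_mem _ _ (isHomogeneous_X K i)) s.2

lemma mulS_eq_sum (x : Fin 3 → K) (d : ℕ) (s : homogeneousSubmodule (Fin 3) K d) :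
    mulS x d s = ∑ i, x i • mulS (Pi.single i 1) d s := by
  refine Subtype.ext ?_
  simp [mulS, Finset.sum_mul, Pi.single_apply, ite_smul]

lemma linear_ne_zero {x : Fin 3 → K} (hx : x ≠ 0) :
    (∑ i, x i • X i : MvPolynomial (Fin 3) K) ≠ 0 := fun h => hx (funext fun i => by
  simpa [coeff_sum, coeff_X', Finsupp.single_left_inj] using congrArg (coeff (Finsupp.single i 1)) h)

lemma linear_mem (x : Fin 3 → K) :
    (∑ i, x i • X i : MvPolynomial (Fin 3) K) ∈ homogeneousSubmodule (Fin 3) K 1 :=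
  Submodule.sum_mem _ fun i _ => Submodule.smul_mem _ _ (isHomogeneous_X K i)

lemma exists_ker_form [IsAlgClosed K] (Q : GI K 3) {d : ℕ} (h0 : 0 < Q.hf d)
    (hh : Q.hf (d + 1) ≤ Q.hf d + 1) :
    ∃ z ∈ homogeneousSubmodule (Fin 3) K 1, z ≠ 0 ∧ (Q.colon z).hf d < Q.hf d := by
  classical
  by_contra hc
  push Not at hc
  let b₀ := finBasisOfFinrankEq K _ (finrank_quot Q d)
  let b₁ := finBasisOfFinrankEq K _ (finrank_quot Q (d + 1))
  choose s hs using fun j => Submodule.Quotient.mk_surjective (Quot' Q d) (b₀ j)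
  let g : Fin 3 × Fin (Q.hf d) → Fin (Q.hf (d + 1)) → K :=
    fun ij => b₁.equivFun ((Quot' Q (d + 1)).mkQ (mulS (Pi.single ij.1 1) d (s ij.2)))
  have := hopf (e := 3) (f := Q.hf d) (by omega) h0 g fun x y hxy => by
    by_contra hn
    push Not at hn
    obtain ⟨hx, hy⟩ := hn
    set w := ∑ j, y j • s j
    have hz : (Quot' Q (d + 1)).mkQ (mulS x d w) = 0 := by
      refine b₁.equivFun.injective (funext fun k => ?_)
      rw [map_zero, Pi.zero_apply, ← hxy k, Fintype.sum_prod_type, mulS_eq_sum]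
      simp only [w, g, map_sum, map_smul, Finset.sum_apply, Pi.smul_apply, smul_eq_mul,
        Finset.mul_sum]
      exact Finset.sum_congr rfl fun i _ => Finset.sum_congr rfl fun j _ => by ring
    have hmem : (∑ i, x i • X i) * (w : MvPolynomial (Fin 3) K) ∈ Q.piece (d + 1) :=
      ((Submodule.Quotient.mk_eq_zero (Quot' Q (d + 1))).1 hz :)
    have hw : (w : MvPolynomial (Fin 3) K) ∉ Q.piece d := fun hwQ => by
      have h1 : (Quot' Q d).mkQ w = 0 := (Submodule.Quotient.mk_eq_zero _).2 hwQ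
      have h2 : ∑ j, y j • b₀ j = 0 := by
        simpa [w, map_sum, hs] using h1
      exact hy (funext fun j => Fintype.linearIndependent_iff.1 b₀.linearIndependent y h2 j)
    have hl := linear_mem x
    have h4 := Submodule.finrank_lt_finrank_of_lt (lt_of_le_of_ne (Q.le_colon hl d) fun e =>
      hw (by rw [e]; exact ⟨w.2, hmem⟩))
    have := hc _ hl (linear_ne_zero hx)
    have := Q.hf_add d
    have := (Q.colon (∑ i, x i • X i)).hf_add d
    omega
  omega

lemma exists_coker_form [IsAlgClosed K] (Q : GI K 3) {d : ℕ} (h0 : 0 < Q.hf (d + 1))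
    (hh : Q.hf d ≤ Q.hf (d + 1) + 1) :
    ∃ z, ∃ hz : z ∈ homogeneousSubmodule (Fin 3) K 1, z ≠ 0 ∧
      0 < (Q.addForm z hz).hf (d + 1) := by
  classical
  by_contra hc
  push Not at hc
  let b₀ := finBasisOfFinrankEq K _ (finrank_quot Q d)
  let b₁ := finBasisOfFinrankEq K _ (finrank_quot Q (d + 1))
  choose s hs using fun j => Submodule.Quotient.mk_surjective (Quot' Q d) (b₀ j)
  let g : Fin 3 × Fin (Q.hf (d + 1)) → Fin (Q.hf d) → K :=
    fun ik j => b₁.equivFun ((Quot' Q (d + 1)).mkQ (mulS (Pi.single ik.1 1) d (s j))) ik.2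
  have := hopf (e := 3) (f := Q.hf (d + 1)) (by omega) h0 g fun x y hxy => by
    by_contra hn
    push Not at hn
    obtain ⟨hx, hy⟩ := hn
    let φ : homogeneousSubmodule (Fin 3) K (d + 1) ⧸ Quot' Q (d + 1) →ₗ[K] K :=
      ∑ k, y k • b₁.coord k
    have hφs : ∀ j, φ ((Quot' Q (d + 1)).mkQ (mulS x d (s j))) = 0 := fun j => by
      rw [← hxy j, Fintype.sum_prod_type, mulS_eq_sum]
      simp only [φ, g, map_sum, map_smul, LinearMap.sum_apply, LinearMap.smul_apply, smul_eq_mul,
        Finset.mul_sum, Basis.equivFun_apply, Basis.coord_apply]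
      exact Finset.sum_congr rfl fun i _ => Finset.sum_congr rfl fun k _ => by ring
    have hl := linear_mem x
    have hfull : homogeneousSubmodule (Fin 3) K (d + 1) ≤
        (Q.addForm _ hl).piece (d + 1) := (GI.hf_eq_zero_iff _).1 (Nat.le_zero.1 (hc _ hl (linear_ne_zero hx)))
    have hφ : ∀ t, φ ((Quot' Q (d + 1)).mkQ t) = 0 := by
      intro t
      obtain ⟨q, hq, _, ⟨w, hw, rfl⟩, ht⟩ := Submodule.mem_sup.1 (hfull t.2)
      have hts : t - mulS x d ⟨w, hw⟩ ∈ Quot' Q (d + 1) := by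
        show (t : MvPolynomial (Fin 3) K) - _ ∈ Q.piece (d + 1)
        rw [← ht]
        simpa [mulS] using hq
      obtain ⟨c, hcw⟩ : ∃ c : Fin (Q.hf d) → K, (⟨w, hw⟩ : homogeneousSubmodule (Fin 3) K d) -
          ∑ j, c j • s j ∈ Quot' Q d :=
        ⟨b₀.equivFun ((Quot' Q d).mkQ ⟨w, hw⟩), (Submodule.Quotient.mk_eq_zero _).1 (by
          rw [← Submodule.mkQ_apply, map_sub, sub_eq_zero, map_sum]
          simp only [map_smul, Submodule.mkQ_apply, hs]
          exact (b₀.sum_equivFun _).symm)⟩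
      have hmul : mulS x d ((⟨w, hw⟩ : homogeneousSubmodule (Fin 3) K d) - ∑ j, c j • s j) ∈
          Quot' Q (d + 1) := Q.mul_mem hl hcw
      have e1 : (Quot' Q (d + 1)).mkQ t = (Quot' Q (d + 1)).mkQ (mulS x d (∑ j, c j • s j)) := by
        refine (Submodule.Quotient.eq _).2 ?_
        have := Submodule.add_mem _ hts hmul
        rwa [map_sub, sub_add_sub_cancel] at this
      rw [e1, map_sum, map_sum, map_sum]
      exact Finset.sum_eq_zero fun j _ => by rw [map_smul, map_smul, map_smul, hφs, smul_zero]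
    refine hy (funext fun k => ?_)
    obtain ⟨t, ht⟩ := Submodule.Quotient.mk_surjective (Quot' Q (d + 1)) (b₁ k)
    have := hφ t
    rw [Submodule.mkQ_apply, ht] at this
    simpa [φ, Finsupp.single_apply] using this
  omega

lemma exists_zero_two [IsAlgClosed K] {z g : MvPolynomial (Fin 3) K} {m : ℕ} (hm : 1 ≤ m)
    (hz : z ∈ homogeneousSubmodule (Fin 3) K 1) (hg : g ∈ homogeneousSubmodule (Fin 3) K m) :
    ∃ p : Fin 3 → K, p ≠ 0 ∧ eval p z = 0 ∧ eval p g = 0 := by
  by_contra hn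
  push Not at hn
  refine not_two (u := z) (v := g) ((hz : z.IsHomogeneous 1).coeff_eq_zero (by simp))
    ((hg : g.IsHomogeneous m).coeff_eq_zero (by simp; omega)) (X_mem_radical fun p hp => ?_)
  by_contra hp0
  exact hn p hp0 (hp z (by simp)) (hp g (by simp))

/-- Without base points a binary quotient of degree `m` has dimension below `m`. -/
lemma hf_lt_of_bpf [IsAlgClosed K] {U : GI K 3} {z : MvPolynomial (Fin 3) K} (hz : z ∈ U.piece 1)
    (hne : z ≠ 0) {m : ℕ} (hb : Bpf (U.piece (m + 1))) : U.hf (m + 1) ≤ m := by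
  by_contra hn
  set Z := (homogeneousSubmodule (Fin 3) K m).map (LinearMap.mulLeft K z)
  have hZ : Z ≤ U.piece (m + 1) := by
    rintro _ ⟨w, hw, rfl⟩
    simpa [mul_comm, add_comm] using U.hom_mul_mem hw hz
  have hZr : finrank K Z = (m + 2).choose 2 := by
    rw [← (Submodule.equivMapOfInjective _ (fun x y h => mul_left_cancel₀ hne h) _).finrank_eq,
      finrank_three]
  have h1 := U.hf_add (m + 1)
  rw [finrank_three, show m + 1 + 2 = (m + 2) + 1 by omega, Nat.choose_succ_succ',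
    Nat.choose_one_right, show (1 + 1 : ℕ) = 2 from rfl] at h1
  by_cases hall : U.piece (m + 1) ≤ Z
  · obtain ⟨p, hp, hpz, -⟩ := exists_common_zero (U.le 1 hz) (U.le 1 hz)
    exact hp (hb p fun q hq => by
      obtain ⟨w, -, rfl⟩ := hall hq
      simp [hpz])
  obtain ⟨g, hg, hgZ⟩ := SetLike.not_le_iff_exists.1 hall
  haveI : Module.Finite K Z := Submodule.finiteDimensional_of_le hZ
  have hle : Z ⊔ Submodule.span K {g} ≤ U.piece (m + 1) :=
    sup_le hZ ((Submodule.span_singleton_le_iff_mem _ _).2 hg)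
  have hlt : Z < Z ⊔ Submodule.span K {g} := lt_of_le_of_ne le_sup_left fun e =>
    hgZ (e ▸ Submodule.mem_sup_right (Submodule.mem_span_singleton_self g))
  haveI := Submodule.finiteDimensional_of_le hle
  have h2 := Submodule.finrank_lt_finrank_of_lt hlt
  have heq := Submodule.eq_of_le_of_finrank_le hle (by omega)
  obtain ⟨p, hp, hpz, hpg⟩ := exists_zero_two (show 1 ≤ m + 1 by omega) (U.le 1 hz) (U.le _ hg)
  refine hp (hb p fun q hq => ?_)
  rw [← heq] at hq
  obtain ⟨_, ⟨w, -, rfl⟩, _, hy, rfl⟩ := Submodule.mem_sup.1 hq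
  obtain ⟨r, rfl⟩ := Submodule.mem_span_singleton.1 hy
  simp [hpz, hpg, smul_eq_C_mul]

/-- A binary quotient is at most `b - 1` in degree `c`. -/
lemma binary_small [IsAlgClosed K] {U : GI K 3} {a b c : ℕ} {f₁ f₂ f₃ z : MvPolynomial (Fin 3) K}
    (hT : Triple U a b c f₁ f₂ f₃) (ha : 2 ≤ a) (hab : a ≤ b) (hbc : b ≤ c) (hc : 1 ≤ c)
    (hz : z ∈ U.piece 1) (hne : z ≠ 0) {d : ℕ} (hd : c ≤ d) : U.hf d ≤ b - 1 ∨ U.hf d = 0 := by
  have step : ∀ m, c ≤ m → U.hf (m + 1) + 1 ≤ U.hf m ∨ U.hf (m + 1) = 0 := by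
    intro m hm
    rcases Nat.eq_zero_or_pos (U.hf m) with h | h
    · exact Or.inr (U.hf_eq_zero_succ h)
    · exact Or.inl (hf_succ_lt hz hne (hT.bpf (by omega) (by omega) hm) h)
  have hbase : U.hf c ≤ b - 1 ∨ U.hf c = 0 := by
    rcases hbc.eq_or_lt with rfl | hlt
    · obtain ⟨m, rfl⟩ : ∃ m, b = m + 1 := ⟨b - 1, by omega⟩
      exact Or.inl (hf_lt_of_bpf hz hne (hT.bpf hab le_rfl le_rfl))
    have hb' : U.hf b ≤ b := by
      by_contra hn
      obtain ⟨m, rfl⟩ : ∃ m, b = m + 1 := ⟨b - 1, by omega⟩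
      set Z := (homogeneousSubmodule (Fin 3) K m).map (LinearMap.mulLeft K z)
      have hZ : Z ≤ U.piece (m + 1) := by
        rintro _ ⟨w, hw, rfl⟩
        simpa [mul_comm, add_comm] using U.hom_mul_mem hw hz
      have hZr : finrank K Z = (m + 2).choose 2 := by
        rw [← (Submodule.equivMapOfInjective _ (fun x y h => mul_left_cancel₀ hne h) _).finrank_eq,
          finrank_three]
      have h1 := U.hf_add (m + 1)
      rw [finrank_three, show m + 1 + 2 = (m + 2) + 1 by omega, Nat.choose_succ_succ',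
        Nat.choose_one_right, show (1 + 1 : ℕ) = 2 from rfl] at h1
      have heq := Submodule.eq_of_le_of_finrank_le hZ (by omega)
      obtain ⟨p, hp, hpz, hpg⟩ := exists_zero_two hc (U.le 1 hz) (U.le _ hT.m₃)
      have hvan : ∀ q ∈ U.piece (m + 1), eval p q = 0 := fun q hq => by
        rw [← heq] at hq
        obtain ⟨w, -, rfl⟩ := hq
        simp [hpz]
      exact hp (hT.nz p (eval_eq_zero_of_piece hab hT.m₁ hvan hp) (hvan _ hT.m₂) hpg)
    have hmid : ∀ m, b ≤ m → U.hf m ≤ b := by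
      intro m hm
      induction m, hm using Nat.le_induction with
      | base => exact hb'
      | succ m hm ih => exact (hf_succ_le hz hne (by omega)).trans ih
    obtain ⟨m, rfl⟩ : ∃ m, c = m + 1 := ⟨c - 1, by omega⟩
    rcases Nat.eq_zero_or_pos (U.hf (m + 1)) with h | h
    · exact Or.inr h
    have h2 := hmid m (by omega)
    have h3 := hf_succ_lt' hz hne (by omega) (by omega) (hT.bpf (by omega) hbc le_rfl) h
    exact Or.inl (by omega)
  induction d, hd using Nat.le_induction with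
  | base => exact hbase
  | succ m hm ih => rcases step m hm with h | h <;> omega

lemma Triple.mono {Q Q' : GI K 3} {a b c : ℕ} {f₁ f₂ f₃ : MvPolynomial (Fin 3) K}
    (h : Triple Q a b c f₁ f₂ f₃) (hQ : ∀ d, Q.piece d ≤ Q'.piece d) :
    Triple Q' a b c f₁ f₂ f₃ :=
  ⟨hQ _ h.m₁, hQ _ h.m₂, hQ _ h.m₃, h.nz⟩

end Vale.Agent.P200.Ternary
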