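import Vale.Agent.P200.Ternary.Growth

/-!
The monomial model for three forms of degrees `a ≤ b ≤ c` with `a + b = c + 3` in three variables.
-/

namespace Vale.Agent.P200.Ternary

open MvPolynomial Module Vale.Agent.P200.SmallH2

attribute [local instance] MvPolynomial.gradedAlgebra

variable {K : Type*} [Field K]

local instance finiteHomMain (d : ℕ) : Module.Finite K (homogeneousSubmodule (Fin 3) K d) :=
  Module.Finite.iff_fg.2 (homogeneousSubmodule_fg (Fin 3) K d)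

lemma R_one {b a : ℕ} (hb : 2 ≤ b) (ha : 2 ≤ a) : R b 1 a = 3 := by
  induction a, ha using Nat.le_induction with
  | base => simp [R, Finset.sum_range_succ]; omega
  | succ a ha ih => rw [R_succ, ih]; omega

lemma R_tail {b d k : ℕ} (h : k + b ≤ d + 2) :
    R b d (k + 1) = k * b + min (d + 1 - k) b := by
  rw [R_succ, R_eq_mul b d k h]

/-- Three forms without a common zero inside `Q`. -/
structure Triple (Q : GI K 3) (a b c : ℕ) (f₁ f₂ f₃ : MvPolynomial (Fin 3) K) : Prop where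
  m₁ : f₁ ∈ Q.piece a
  m₂ : f₂ ∈ Q.piece b
  m₃ : f₃ ∈ Q.piece c
  nz : ∀ p : Fin 3 → K, eval p f₁ = 0 → eval p f₂ = 0 → eval p f₃ = 0 → p = 0

lemma Triple.two [IsAlgClosed K] {Q : GI K 3} {a b c : ℕ} {f₁ f₂ f₃ : MvPolynomial (Fin 3) K}
    (h : Triple Q a b c f₁ f₂ f₃) (ha : 1 ≤ a) (hb : 1 ≤ b) (hc : 1 ≤ c) :
    Two Q a b f₁ f₂ := by
  obtain ⟨h0, hreg⟩ := regular_second ha hb hc (Q.le a h.m₁) (Q.le b h.m₂) (Q.le c h.m₃) h.nz
  exact ⟨h.m₁, h.m₂, pair_of_regular ha hb h.m₁ h.m₂ h0 hreg⟩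

lemma Triple.bpf {Q : GI K 3} {a b c d : ℕ} {f₁ f₂ f₃ : MvPolynomial (Fin 3) K}
    (h : Triple Q a b c f₁ f₂ f₃) (had : a ≤ d) (hbd : b ≤ d) (hcd : c ≤ d) :
    Bpf (Q.piece d) := fun p hp => by
  by_contra hp0
  exact hp0 (h.nz p (eval_eq_zero_of_piece had h.m₁ hp hp0)
    (eval_eq_zero_of_piece hbd h.m₂ hp hp0) (eval_eq_zero_of_piece hcd h.m₃ hp hp0))

/-- A pair can be completed inside `Q` by a form of degree `e`. -/
lemma Two.exists_triple [IsAlgClosed K] {Q : GI K 3} {a b e : ℕ} {f₁ f₂ : MvPolynomial (Fin 3) K}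
    (h : Two Q a b f₁ f₂) (ha : 1 ≤ a) (hb : 1 ≤ b) (he : 1 ≤ e) (hE : Bpf (Q.piece e)) :
    ∃ f J, f ∈ J ∧ f₁ ∈ J ∧ f₂ ∈ J ∧ Sat Q (H3 a b e) J ∧
      (∀ j, j + 3 ≠ a + b + e → KExact J 0 j) ∧ Triple Q a b e f₁ f₂ f := by
  obtain ⟨f, hf, hreg⟩ := exists_regular' h.pair.closed h.pair.exact0 _ hE
  have hf0 : f ≠ 0 := fun h0 => by
    have h1 : (1 : MvPolynomial (Fin 3) K) ∈ Ideal.span {f₁} ⊔ Ideal.span {f₂} :=
      hreg 1 (by simp [h0])
    have h3 := h.pair.dims 0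
    have h4 : homogeneousSubmodule (Fin 3) K 0 ≤ part (Ideal.span {f₁} ⊔ Ideal.span {f₂}) 0 :=
      fun q hq => ⟨hq, by
        have := Ideal.mul_mem_left _ q h1
        rw [mul_one] at this
        exact this⟩
    have h5 := Submodule.finrank_mono h4
    rw [R_zero b hb a ha] at h3
    omega
  have hS : Sat Q (H3 a b e) (Ideal.span {f₁} ⊔ Ideal.span {f₂} ⊔ Ideal.span {f}) :=
    h.pair.toSat.succ hf hreg hf0 fun d => by
      unfold H3
      split
      · have := R_le b d a (show d - e ≤ d by omega)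
        omega
      · omega
  refine ⟨f, _, Submodule.mem_sup_right (Ideal.mem_span_singleton_self _),
    Submodule.mem_sup_left (Submodule.mem_sup_left (Ideal.mem_span_singleton_self _)),
    Submodule.mem_sup_left (Submodule.mem_sup_right (Ideal.mem_span_singleton_self _)), hS,
    fun j hj => kexact_succ h.pair.closed he (Q.le e hf) hreg (h.pair.exact0 j)
      fun h' => h.pair.exact1 _ (by omega), h.left, h.right, hf, fun p h1 h2 h3 => ?_⟩
  have hN : H3 a b e (a + b + e) = 0 := by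
    unfold H3
    rw [if_pos (by omega), R_eq_mul b _ a (by omega), R_eq_mul b _ a (by omega)]
    omega
  refine hS.no_zero hN ?_
  simp only [sup_le_iff, Ideal.span_singleton_le_iff_mem, RingHom.mem_ker]
  exact ⟨⟨h1, h2⟩, h3⟩

lemma Two.colon {Q : GI K 3} {a b : ℕ} {f₁ f₂ : MvPolynomial (Fin 3) K}
    (h : Two Q a b f₁ f₂) {l : MvPolynomial (Fin 3) K}
    (hl : l ∈ homogeneousSubmodule (Fin 3) K 1) : Two (Q.colon l) a b f₁ f₂ :=
  h.mono (Q.le_colon hl)

/-- Without base points and without decrease, the quotient is large. -/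
lemma flat_bound [IsAlgClosed K] {Q : GI K 3} {a b e : ℕ} {f₁ f₂ : MvPolynomial (Fin 3) K}
    (hT : Two Q a b f₁ f₂) (ha : 2 ≤ a) (hab : a ≤ b) (hb : Bpf (Q.piece (e + 1)))
    (hh : Q.hf (e + 1 + 1) = Q.hf (e + 1)) (h0 : 0 < Q.hf (e + 1)) :
    2 + R b e (e + 2 - b + 1) ≤ Q.hf (e + 1) := by
  have hX : ∀ i : Fin 3, (X i : MvPolynomial (Fin 3) K) ∈ homogeneousSubmodule (Fin 3) K 1 :=
    fun i => isHomogeneous_X K i
  obtain ⟨x, hx, hxQ, s, t, hst, hk⟩ := exists_kill Q (d := e + 1) hh.le h0 (hX 0) (hX 1)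
  set z := s • (X 0 : MvPolynomial (Fin 3) K) + t • X 1 with hzdef
  have hz : z ∈ homogeneousSubmodule (Fin 3) K 1 :=
    Submodule.add_mem _ (Submodule.smul_mem _ _ (hX 0)) (Submodule.smul_mem _ _ (hX 1))
  have hz0 : z ≠ 0 := fun h => by
    have c0 := congrArg (coeff (Finsupp.single (0 : Fin 3) 1)) h
    have c1 := congrArg (coeff (Finsupp.single (1 : Fin 3) 1)) h
    simp [hzdef, coeff_X', Finsupp.single_left_inj] at c0 c1
    rcases hst with h' | h'
    · exact h' c0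
    · exact h' c1
  have s1 := Q.hf_split hz hz0 e
  have s2 := Q.hf_split hz hz0 (e + 1)
  have hlt : (Q.colon z).hf (e + 1) < Q.hf (e + 1) := by
    have h4 := Submodule.finrank_lt_finrank_of_lt (lt_of_le_of_ne (Q.le_colon hz (e + 1)) fun h =>
      hxQ (by rw [h]; exact ⟨hx, hk⟩))
    have := Q.hf_add (e + 1)
    have := (Q.colon z).hf_add (e + 1)
    omega
  have hu : 0 < (Q.addForm z hz).hf (e + 1) := by
    by_contra hn
    have := (Q.addForm z hz).hf_eq_zero_succ (d := e + 1) (by omega)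
    omega
  have hdec := hf_succ_lt (Q := Q.addForm z hz) (addForm_self hz) hz0
    (hb.mono (Q.le_addForm hz _)) hu
  have := (two_bound e (Q.colon z) ha hab (hT.colon hz) 1 le_rfl (by omega)).2
  omega

/-- The growth from degree `c - 1` to degree `c` when `b < c`. -/
lemma corner_lt [IsAlgClosed K] {a b e : ℕ} {Q : GI K 3} {f₁ f₂ : MvPolynomial (Fin 3) K}
    (habc : a + b = e + 5) (hab : a ≤ b) (hbe : b ≤ e + 1) (hT : Two Q a b f₁ f₂)
    (hb : Bpf (Q.piece (e + 1))) (h0 : 0 < Q.hf (e + 1)) (hle : Q.hf (e + 1) ≤ Q.hf (e + 1 + 1)) :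
    Q.hf (e + 1 + 1) = Q.hf (e + 1) ∧ R b (e + 1) (e + 1 + 2 - b + 1) ≤ Q.hf (e + 1) := by
  obtain ⟨k, rfl⟩ : ∃ k, a = k + 4 := ⟨a - 4, by omega⟩
  obtain rfl : e = k + b - 1 := by omega
  have e1 : R b (k + b - 1) (k + 2) = (k + 2) * b - 1 := by
    rw [R_tail (by omega)]
    rw [show k + 2 = k + 1 + 1 from rfl, add_one_mul (k + 1)]
    omega
  have e2 : R b (k + b - 1 + 1) (k + 3) = (k + 3) * b - 1 := by
    rw [R_tail (by omega)]
    rw [show k + 3 = k + 2 + 1 from rfl, add_one_mul (k + 2)]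
    omega
  have low : ∀ Q' : GI K 3, ∀ g₁ g₂, Two Q' (k + 4) b g₁ g₂ → Bpf (Q'.piece (k + b - 1 + 1)) →
      0 < Q'.hf (k + b - 1 + 1) → Q'.hf (k + b - 1 + 1) ≤ Q'.hf (k + b - 1 + 1 + 1) →
      (k + 2) * b + 1 ≤ Q'.hf (k + b - 1 + 1) := by
    intro Q' g₁ g₂ hT' hb' h0' hle'
    rcases hle'.eq_or_lt with heq | hlt
    · have := flat_bound hT' (by omega) hab hb' heq.symm h0'
      rw [show k + b - 1 + 2 - b + 1 = k + 2 by omega, e1] at this
      have : 0 < (k + 2) * b := Nat.mul_pos (by omega) (by omega)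
      omega
    · have h1 := (two_bound _ Q' (by omega) hab hT' 1 le_rfl hlt).2
      rw [show k + b - 1 + 1 + 2 - b + 1 = k + 3 by omega, e2] at h1
      rw [show k + 3 = k + 2 + 1 from rfl, add_one_mul] at h1
      omega
  obtain ⟨g, J, hgJ, h1J, h2J, hS, hk, hTr⟩ := hT.exists_triple (by omega) (by omega)
    (show 1 ≤ k + b - 1 + 1 by omega) hb
  have hH1 : H3 (k + 4) b (k + b - 1 + 1) (k + b - 1 + 1) = (k + 4) * b - 4 := by
    simp only [H3, le_refl, if_true, Nat.sub_self]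
    rw [R_zero b (by omega) _ (by omega), R_succ, e2, show k + 4 = k + 3 + 1 from rfl,
      add_one_mul (k + 3)]
    have : 0 < (k + 3) * b := Nat.mul_pos (by omega) (by omega)
    omega
  have hH2 : H3 (k + 4) b (k + b - 1 + 1) (k + b - 1 + 1 + 1) = (k + 4) * b - 4 := by
    simp only [H3, if_pos (show k + b - 1 + 1 ≤ k + b - 1 + 1 + 1 by omega), Nat.add_sub_cancel_left]
    rw [R_tail (by omega), R_one (by omega) (by omega), show k + 4 = k + 3 + 1 from rfl,
      add_one_mul (k + 3)]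
    omega
  set D := 2 * (k + b) + 1 with hDdef
  have hHD : H3 (k + 4) b (k + b - 1 + 1) D = 1 := by
    simp only [H3, if_pos (show k + b - 1 + 1 ≤ D by omega)]
    rw [R_eq_mul b D _ (by omega), show k + 4 = k + 3 + 1 from rfl, R_tail (by omega),
      add_one_mul (k + 3)]
    omega
  have hhalf : ∀ m, m + 1 ≤ k + b - 1 + 1 →
      H3 (k + 4) b (k + b - 1 + 1) (D - m) = H3 (k + 4) b (k + b - 1 + 1) m := by
    intro m hm
    have := R_compl (a := k + 4) (b := b) (c := k + b + 1) (m := m) (by omega) (by omega)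
    simp only [H3, if_pos (show k + b - 1 + 1 ≤ D - m by omega),
      if_neg (show ¬ k + b - 1 + 1 ≤ m by omega)]
    rw [R_eq_mul b (D - m) _ (by omega), show D - m - (k + b - 1 + 1) = k + b + 1 - m by omega]
    omega
  obtain ⟨L, hL, hsum⟩ := exists_link hS hHD (fun j hj => hk j (by omega)) fun m hm => by
    rcases lt_trichotomy m (k + b - 1 + 1) with h | rfl | h
    · exact hhalf m (by omega)
    · rw [show D - (k + b - 1 + 1) = k + b - 1 + 1 + 1 by omega, hH1, hH2]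
    · rcases Nat.eq_or_lt_of_le (show k + b - 1 + 1 + 1 ≤ m by omega) with rfl | h'
      · rw [show D - (k + b - 1 + 1 + 1) = k + b - 1 + 1 by omega, hH1, hH2]
      · have := hhalf (D - m) (by omega)
        rw [show D - (D - m) = m by omega] at this
        exact this.symm
  have hTL : Triple L (k + 4) b (k + b - 1 + 1) f₁ f₂ g :=
    ⟨hL _ ⟨Q.le _ hTr.m₁, h1J⟩, hL _ ⟨Q.le _ hTr.m₂, h2J⟩, hL _ ⟨Q.le _ hTr.m₃, hgJ⟩, hTr.nz⟩
  have l1 := hsum (k + b - 1 + 1) (by omega)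
  have l2 := hsum (k + b - 1 + 1 + 1) (by omega)
  rw [show D - (k + b - 1 + 1) = k + b - 1 + 1 + 1 by omega, hH1] at l1
  rw [show D - (k + b - 1 + 1 + 1) = k + b - 1 + 1 by omega, hH2] at l2
  rw [show k + b - 1 + 1 + 2 - b + 1 = k + 3 by omega, e2]
  rcases Nat.eq_zero_or_pos (L.hf (k + b - 1 + 1)) with hL0 | hL0
  · have := L.hf_eq_zero_succ hL0
    refine ⟨by omega, ?_⟩
    rw [show k + 4 = k + 3 + 1 from rfl, add_one_mul] at l2
    omega
  · have low1 := low Q f₁ f₂ hT hb h0 hle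
    have low2 := low L f₁ f₂ (hTL.two (by omega) (by omega) (by omega))
      (hTL.bpf (by omega) (by omega) le_rfl) hL0 (by omega)
    rw [show k + 4 = k + 2 + 1 + 1 from rfl, add_one_mul, add_one_mul] at l1
    have : 4 ≤ b := by omega
    have : 2 * b ≤ (k + 2) * b := Nat.mul_le_mul_right b (by omega)
    omega

/-- The growth from degree `c - 1` to degree `c` when `a = 3`, `b = c`. -/
lemma corner_eq [IsAlgClosed K] {e : ℕ} {Q : GI K 3} {f₁ : MvPolynomial (Fin 3) K}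
    (he : 1 ≤ e) (h1 : f₁ ∈ Q.piece 3) (hf0 : f₁ ≠ 0)
    (hb : Bpf (Q.piece (e + 1))) (h0 : 0 < Q.hf (e + 1)) (hle : Q.hf (e + 1) ≤ Q.hf (e + 1 + 1)) :
    Q.hf (e + 1 + 1) = Q.hf (e + 1) ∧ R (e + 2) (e + 1) 2 ≤ Q.hf (e + 1) := by
  obtain ⟨a, g₁, ha2, hae, ha3, hg₁, hg0, hea⟩ : ∃ a g₁, 2 ≤ a ∧ a ≤ e + 1 ∧ a ≤ 3 ∧
      g₁ ∈ Q.piece a ∧ g₁ ≠ 0 ∧ (a = 2 → e = 1) := by
    rcases Nat.eq_or_lt_of_le he with rfl | h
    · obtain ⟨g, hg, hg0⟩ : ∃ g ∈ Q.piece 2, g ≠ 0 := by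
        by_contra hn
        push Not at hn
        have := hb (fun _ => 1) fun q hq => by rw [hn q hq, map_zero]
        simpa using congrFun this 0
      exact ⟨2, g, le_rfl, le_rfl, by omega, hg, hg0, fun _ => rfl⟩
    · exact ⟨3, f₁, by omega, by omega, le_rfl, h1, hf0, by omega⟩
  have hdom : ∀ x, g₁ * x ∈ (⊥ : Ideal (MvPolynomial (Fin 3) K)) → x ∈ (⊥ : Ideal _) := fun x hx => by
    simpa [hg0] using hx
  have hbot : Closed (⊥ : Ideal (MvPolynomial (Fin 3) K)) := (sat_bot Q).closed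
  have hk0 : ∀ j, KExact (Ideal.span {g₁}) 0 j := fun j => by
    rw [← bot_sup_eq (Ideal.span {g₁})]
    exact kexact_succ hbot (show 1 ≤ a by omega) (Q.le a hg₁) hdom (kexact_bot (by omega) j)
      fun _ => kexact_bot (by omega) _
  have hcl : Closed (Ideal.span {g₁}) := by
    intro x hx i
    obtain ⟨w, rfl⟩ := Ideal.mem_span_singleton'.1 hx
    rw [mul_comm w g₁]
    by_cases hi : i < a
    · rw [homogeneousComponent_mul_lt (Q.le a hg₁) w hi]; exact Submodule.zero_mem _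
    · obtain ⟨j, rfl⟩ : ∃ j, i = a + j := ⟨i - a, by omega⟩
      rw [homogeneousComponent_mul (Q.le a hg₁)]
      exact Ideal.mul_mem_right _ _ (Ideal.mem_span_singleton_self _)
  obtain ⟨g₂, hg₂, hreg⟩ := exists_regular' hcl hk0 _ hb
  have hT : Two Q a (e + 1) g₁ g₂ :=
    ⟨hg₁, hg₂, pair_of_regular (by omega) (by omega) hg₁ hg₂ hg0 hreg⟩
  obtain ⟨g, J, -, -, -, hS, -, -⟩ :=
    hT.exists_triple (by omega) (by omega) (show 1 ≤ e + 1 by omega) hb
  have hup := hS.hf_le (e + 1)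
  simp only [H3, le_refl, if_true, Nat.sub_self] at hup
  rw [R_zero (e + 1) (by omega) a (by omega)] at hup
  have hR2 : R (e + 2) (e + 1) 2 = 2 * e + 3 := by
    simp [R, Finset.sum_range_succ]; omega
  rcases hle.eq_or_lt with heq | hlt
  · have := flat_bound hT ha2 hae hb heq.symm h0
    rw [show e + 2 - (e + 1) + 1 = 2 by omega] at this
    have hR1 : R (e + 1) e 2 = 2 * e + 1 := by
      simp [R, Finset.sum_range_succ]; omega
    refine ⟨heq.symm, ?_⟩
    omega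
  · have h2 := two_bound (e + 1) Q ha2 hae hT 1 le_rfl hlt
    rw [show e + 1 + 2 - (e + 1) + 1 = 3 by omega] at h2
    obtain ⟨h3, h4⟩ := h2
    obtain rfl : a = 3 := by omega
    omega

lemma hf_vanishAt {Q : GI K 3} {p : Fin 3 → K} {d : ℕ} {f : MvPolynomial (Fin 3) K}
    (hf : f ∈ Q.piece d) (hfp : eval p f ≠ 0) : (vanishAt Q p).hf d = Q.hf d + 1 := by
  have h1 := Q.hf_add d
  have h2 := (vanishAt Q p).hf_add d
  have hlt : (vanishAt Q p).piece d < Q.piece d :=
    lt_of_le_of_ne inf_le_left fun e => hfp (by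
      have : f ∈ (vanishAt Q p).piece d := by rw [e]; exact hf
      simpa using this.2)
  have h3 := Submodule.finrank_lt_finrank_of_lt hlt
  have h4 : finrank K (Q.piece d) ≤ finrank K ((vanishAt Q p).piece d) + 1 := by
    have e1 := ((aeval p).toLinearMap.comp (Q.piece d).subtype).finrank_range_add_finrank_ker
    have e2 : finrank K (LinearMap.range ((aeval p).toLinearMap.comp (Q.piece d).subtype)) ≤ 1 :=
      (Submodule.finrank_le _).trans (by simp)
    have e3 : finrank K (LinearMap.ker ((aeval p).toLinearMap.comp (Q.piece d).subtype)) =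
        finrank K ((vanishAt Q p).piece d) := by
      rw [LinearMap.ker_comp]
      refine (Submodule.equivMapOfInjective _ (Q.piece d).injective_subtype _).finrank_eq.trans ?_
      rw [Submodule.map_comap_subtype]
      rfl
    omega
  omega

/-- The base point case. -/
lemma corner_point [IsAlgClosed K] {a b c : ℕ} {Q : GI K 3} {f₁ f₂ f₃ : MvPolynomial (Fin 3) K}
    (ha : 2 ≤ a) (hab : a ≤ b) (hbc : b ≤ c) (hT : Triple Q a b c f₁ f₂ f₃) {p : Fin 3 → K}
    (hp : ∀ q ∈ Q.piece (c - 1), eval p q = 0) (hp0 : p ≠ 0) (hf₃ : eval p f₃ ≠ 0) {v : ℕ}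
    (hv : 1 ≤ v) (hle : Q.hf (c - 1) + v ≤ Q.hf c + 1) :
    v + (c - 1 + 2 - b) ≤ a ∧ R b (c - 1) (c - 1 + 2 - b + v) ≤ Q.hf (c - 1) := by
  have hadj : ∀ {e : ℕ} {f : MvPolynomial (Fin 3) K}, e ≤ c → f ∈ Q.piece e →
      ∃ r : K, f - r • f₃ ∈ (vanishAt Q p).piece e := by
    intro e f he hf
    rcases Nat.lt_or_ge e c with h | h
    · refine ⟨0, ?_⟩
      simp only [zero_smul, sub_zero]
      exact ⟨hf, by simpa using eval_eq_zero_of_piece (show e ≤ c - 1 by omega) hf hp hp0⟩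
    · obtain rfl : e = c := by omega
      refine ⟨eval p f / eval p f₃, Submodule.sub_mem _ hf (Submodule.smul_mem _ _ hT.m₃), ?_⟩
      simp [smul_eq_C_mul, hf₃]
  obtain ⟨r₁, hr₁⟩ := hadj (by omega) hT.m₁
  obtain ⟨r₂, hr₂⟩ := hadj (by omega) hT.m₂
  have hT' : Triple Q a b c (f₁ - r₁ • f₃) (f₂ - r₂ • f₃) f₃ := by
    refine ⟨hr₁.1, hr₂.1, hT.m₃, fun q h1 h2 h3 => hT.nz q ?_ ?_ h3⟩
    · simpa [smul_eq_C_mul, h3] using h1
    · simpa [smul_eq_C_mul, h3] using h2
  obtain ⟨h0, hreg⟩ := regular_second (K := K) (show 1 ≤ a by omega) (show 1 ≤ b by omega)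
    (show 1 ≤ c by omega) (Q.le a hT'.m₁) (Q.le b hT'.m₂) (Q.le c hT.m₃) hT'.nz
  have hT2 : Two (vanishAt Q p) a b (f₁ - r₁ • f₃) (f₂ - r₂ • f₃) :=
    ⟨hr₁, hr₂, pair_of_regular (by omega) (by omega) hr₁ hr₂ h0 hreg⟩
  have hsame : (vanishAt Q p).hf (c - 1) = Q.hf (c - 1) := by
    have : (vanishAt Q p).piece (c - 1) = Q.piece (c - 1) :=
      le_antisymm inf_le_left fun q hq => ⟨hq, by simpa using hp q hq⟩
    unfold GI.hf; rw [this]
  have hnext := hf_vanishAt (p := p) hT.m₃ hf₃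
  have := two_bound (c - 1) (vanishAt Q p) ha hab hT2 v hv
    (by rw [show c - 1 + 1 = c by omega, hsame, hnext]; exact hle)
  rwa [hsame] at this

/-- The numerical growth bound in all degrees below `c`. -/
theorem grow [IsAlgClosed K] {a b c : ℕ} {Q : GI K 3} {f₁ f₂ f₃ : MvPolynomial (Fin 3) K}
    (habc : a + b = c + 3) (hab : a ≤ b) (hbc : b ≤ c) (hT : Triple Q a b c f₁ f₂ f₃) :
    Grow a b c Q.hf := by
  intro d hd
  rcases Nat.lt_or_ge (d + 1) c with hlow | hhigh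
  · right
    rw [show ex c (d + 1) = 0 by simp [ex]; omega]
    rcases Nat.lt_or_ge (Q.hf d) (Q.hf (d + 1)) with h | h
    · exact ⟨Q.hf (d + 1) - Q.hf d, by omega, Or.inr (two_bound d Q (by omega) hab
        (hT.two (by omega) (by omega) (by omega)) _ (by omega) (by omega))⟩
    · exact ⟨0, by omega, Or.inl rfl⟩
  obtain ⟨e, rfl⟩ : ∃ e, c = e + 2 := ⟨c - 2, by omega⟩
  obtain rfl : d = e + 1 := by omega
  by_cases h0c : Q.hf (e + 1 + 1) = 0
  · exact Or.inl h0c
  right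
  rw [show ex (e + 2) (e + 1 + 1) = 1 by simp [ex]]
  rcases Nat.lt_or_ge (Q.hf (e + 1 + 1)) (Q.hf (e + 1)) with h | hle
  · exact ⟨0, by omega, Or.inl rfl⟩
  refine ⟨Q.hf (e + 1 + 1) + 1 - Q.hf (e + 1), by omega, Or.inr ?_⟩
  have h0 : 0 < Q.hf (e + 1) := by
    by_contra hn
    have := Q.hf_eq_zero_succ (d := e + 1) (by omega)
    omega
  by_cases hb : Bpf (Q.piece (e + 1))
  · rcases hbc.eq_or_lt with rfl | hlt
    · obtain rfl : a = 3 := by omega
      obtain ⟨h1, h2⟩ := corner_eq (show 1 ≤ e by omega) hT.m₁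
        (regular_second (K := K) (by omega) (show 1 ≤ e + 2 by omega) (show 1 ≤ e + 2 by omega)
          (Q.le _ hT.m₁) (Q.le _ hT.m₂) (Q.le _ hT.m₃) hT.nz).1 hb h0 hle
      rw [h1, show Q.hf (e + 1) + 1 - Q.hf (e + 1) = 1 by omega,
        show e + 1 + 2 - (e + 2) + 1 = 2 by omega]
      exact ⟨by omega, h2⟩
    · obtain ⟨h1, h2⟩ := corner_lt (show a + b = e + 5 by omega) hab (by omega)
        (hT.two (by omega) (by omega) (by omega)) hb h0 hle
      rw [h1, show Q.hf (e + 1) + 1 - Q.hf (e + 1) = 1 by omega]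
      exact ⟨by omega, h2⟩
  obtain ⟨p, hv, hp0⟩ : ∃ p, (∀ q ∈ Q.piece (e + 1), eval p q = 0) ∧ p ≠ 0 := by
    simpa [Bpf] using hb
  have key : ∀ g₁ g₂ g₃, Triple Q a b (e + 2) g₁ g₂ g₃ → eval p g₃ ≠ 0 →
      Q.hf (e + 1 + 1) + 1 - Q.hf (e + 1) + (e + 1 + 2 - b) ≤ a ∧
        R b (e + 1) (e + 1 + 2 - b + (Q.hf (e + 1 + 1) + 1 - Q.hf (e + 1))) ≤ Q.hf (e + 1) := by
    intro g₁ g₂ g₃ hG hg
    exact corner_point (c := e + 2) (by omega) hab hbc hG hv hp0 hg (by omega)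
      (by show Q.hf (e + 1) + _ ≤ Q.hf (e + 1 + 1) + 1; omega)
  by_cases h3 : eval p f₃ = 0
  · by_cases h2 : eval p f₂ = 0
    · have h1 : eval p f₁ ≠ 0 := fun h1 => hp0 (hT.nz p h1 h2 h3)
      have hac : a = e + 2 := by
        by_contra hn
        exact h1 (eval_eq_zero_of_piece (show a ≤ e + 1 by omega) hT.m₁ hv hp0)
      refine key f₃ f₂ f₁ ⟨?_, hT.m₂, ?_, fun q a b c => hT.nz q c b a⟩ h1
      · rw [hac]; exact hT.m₃
      · rw [← hac]; exact hT.m₁
    · have hbc' : b = e + 2 := by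
        by_contra hn
        exact h2 (eval_eq_zero_of_piece (show b ≤ e + 1 by omega) hT.m₂ hv hp0)
      refine key f₁ f₃ f₂ ⟨hT.m₁, ?_, ?_, fun q a b c => hT.nz q a c b⟩ h2
      · rw [hbc']; exact hT.m₃
      · rw [← hbc']; exact hT.m₂
  · exact key f₁ f₂ f₃ hT h3

/-- The monomial model over an algebraically closed field, as a finite family. -/
theorem exists_family [IsAlgClosed K] {a b c : ℕ} {Q : GI K 3}
    {f₁ f₂ f₃ : MvPolynomial (Fin 3) K} (habc : a + b = c + 3) (hab : a ≤ b) (hbc : b ≤ c)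
    (hT : Triple Q a b c f₁ f₂ f₃) :
    ∃ F : ℕ → Finset (ℕ × ℕ), (∀ d, F d ⊆ P a b c d) ∧ (∀ d, (F d).card = Q.hf d) ∧
      ∀ d x y, x ∈ F (d + 1) → y ∈ P a b c d → Adj y x → y ∈ F d := by
  have ha : 3 ≤ a := by omega
  obtain ⟨f, J, hfJ, h1J, h2J, hS, hk, hTr⟩ := (hT.two (by omega) (by omega) (by omega)).exists_triple
    (by omega) (by omega) (show 1 ≤ c by omega) (hT.bpf (by omega) hbc le_rfl)
  have hbig : ∀ d, c + 1 ≤ d → R b d a = a * b := fun d hd => R_eq_mul b d a (by omega)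
  have hRc : R b c a = a * b - 1 := by
    obtain ⟨k, rfl⟩ : ∃ k, a = k + 1 := ⟨a - 1, by omega⟩
    rw [R_tail (by omega), add_one_mul]
    omega
  have hab4 : 9 ≤ a * b := Nat.mul_le_mul (show 3 ≤ a by omega) (show 3 ≤ b by omega)
  have hlowH : ∀ m ≤ c, H3 a b c m + ex c m = R b m a := by
    intro m hm
    simp only [H3, ex]
    rcases Nat.eq_or_lt_of_le hm with rfl | h
    · rw [if_pos le_rfl, Nat.sub_self, R_zero b (by omega) a (by omega), if_pos rfl]
      omega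
    · rw [if_neg (by omega), if_neg (by omega)]
      omega
  have hD : H3 a b c (2 * c) = 1 := by
    simp only [H3, if_pos (show c ≤ 2 * c by omega), show 2 * c - c = c by omega]
    rw [hbig _ (by omega), hRc]
    omega
  have hhalf : ∀ m < c, H3 a b c (2 * c - m) = H3 a b c m := by
    intro m hm
    have := R_compl (a := a) habc hm
    simp only [H3, if_pos (show c ≤ 2 * c - m by omega), if_neg (show ¬ c ≤ m by omega),
      show 2 * c - m - c = c - m by omega]
    rw [hbig _ (by omega)]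
    omega
  have hsym : ∀ m ≤ 2 * c, H3 a b c (2 * c - m) = H3 a b c m := by
    intro m hm
    rcases lt_trichotomy m c with h | rfl | h
    · exact hhalf m h
    · rw [show 2 * m - m = m by omega]
    · have := hhalf (2 * c - m) (by omega)
      rw [show 2 * c - (2 * c - m) = m by omega] at this
      exact this.symm
  obtain ⟨L, hL, hsum⟩ := exists_link hS hD (fun j hj => hk j (by omega)) hsym
  have hTL : Triple L a b c f₁ f₂ f :=
    ⟨hL _ ⟨Q.le _ hTr.m₁, h1J⟩, hL _ ⟨Q.le _ hTr.m₂, h2J⟩, hL _ ⟨Q.le _ hTr.m₃, hfJ⟩, hTr.nz⟩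
  have hSL : Sat L (H3 a b c) J := ⟨hS.closed, hL, hS.dims⟩
  have hh : ∀ d ≤ c, Q.hf d + ex c d ≤ R b d a := fun d hd => by
    have := hlowH d hd; have := hS.hf_le d; omega
  have gh : ∀ d ≤ c, L.hf d + ex c d ≤ R b d a := fun d hd => by
    have := hlowH d hd; have := hSL.hf_le d; omega
  have hsum' : ∀ m ≤ c, L.hf m + Q.hf (2 * c - m) + ex c m = R b m a := fun m hm => by
    have := hlowH m hm; have := hsum m (by omega); omega
  have hmid : L.hf c + Q.hf c + 1 = R b c a := by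
    have := hsum' c le_rfl
    rw [show 2 * c - c = c by omega] at this
    simpa [ex] using this
  have h0 : ∀ d, 2 * c < d → Q.hf d = 0 := fun d hd => by
    have := hS.hf_le d
    simp only [H3, if_pos (show c ≤ d by omega)] at this
    rw [hbig d (by omega), hbig (d - c) (by omega)] at this
    omega
  refine ⟨fam a b c Q.hf L.hf, fun d => ?_, card_fam habc (by omega) (by omega) (by omega) hh gh
    hsum' h0, fun d x y hx hy hA => fam_down habc (by omega) (by omega) (by omega)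
      (grow habc hab hbc hT) (grow habc hab hbc hTL) hmid hx hy hA⟩
  unfold fam
  split <;> exact Finset.filter_subset _ _

/-- Regular sequences of forms contain a power of every variable in their ideal. -/
lemma X_mem_radical_of_regular' {e : Fin 3 → ℕ} {f : Fin 3 → MvPolynomial (Fin 3) K}
    (hf : ∀ i, f i ∈ homogeneousSubmodule (Fin 3) K (e i))
    (hreg : RingTheory.Sequence.IsWeaklyRegular (MvPolynomial (Fin 3) K) (List.ofFn f)) (i : Fin 3) :
    (X i : MvPolynomial (Fin 3) K) ∈ (Ideal.span (Set.range f)).radical := by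
  classical
  rw [← Ideal.sInf_minimalPrimes, Submodule.mem_sInf]
  intro P' hP
  obtain ⟨P, rfl⟩ : ∃ P : Ideal (MvPolynomial (Fin 3) K), P = P' := ⟨P', rfl⟩
  haveI := hP.1.1
  set 𝒜 := homogeneousSubmodule (Fin 3) K with h𝒜
  have hcore_le : (P.homogeneousCore 𝒜).toIdeal ≤ P := Ideal.toIdeal_homogeneousCore_le 𝒜 P
  have hspan : Ideal.span (Set.range f) ≤ (P.homogeneousCore 𝒜).toIdeal := by
    refine Ideal.span_le.2 ?_
    rintro _ ⟨k, rfl⟩
    exact Ideal.mem_homogeneousCore_of_homogeneous_of_mem ⟨e k, hf k⟩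
      (hP.1.2 (Ideal.subset_span ⟨k, rfl⟩))
  have hcore : P ≤ (P.homogeneousCore 𝒜).toIdeal :=
    hP.2 ⟨hP.1.1.homogeneousCore, hspan⟩ hcore_le
  have hPh : P.IsHomogeneous 𝒜 := by
    rw [le_antisymm hcore hcore_le]
    exact (P.homogeneousCore 𝒜).isHomogeneous
  set m := RingHom.ker (constantCoeff (σ := Fin 3) (R := K)) with hm
  haveI : m.IsPrime := RingHom.ker_isPrime _
  have hPm : P ≤ m := le_ker_constantCoeff_of_isHomogeneous hPh hP.1.1.ne_top
  have hXm : (X i : MvPolynomial (Fin 3) K) ∈ m := by simp [hm]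
  by_contra hX
  have hlt : P < m := lt_of_le_of_ne hPm fun e => hX (e ▸ hXm)
  have h1 : ((3 : ℕ) : ℕ∞) ≤ P.height :=
    le_height_of_forall_mem hreg 3 le_rfl P inferInstance fun j _ => hP.1.2 (Ideal.subset_span ⟨j, rfl⟩)
  have hmspan : m = Ideal.span (Set.range (X : Fin 3 → MvPolynomial (Fin 3) K)) := by
    refine le_antisymm (fun a ha => mem_span_X_of_constantCoeff ha) (Ideal.span_le.2 ?_)
    rintro _ ⟨j, rfl⟩
    simp [hm]
  have hmin : m ∈ (Ideal.span (Set.range (X : Fin 3 → MvPolynomial (Fin 3) K))).minimalPrimes :=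
    ⟨⟨inferInstance, hmspan.ge⟩, fun q hq _ => hmspan.trans_le hq.2⟩
  have h2 := Ideal.height_le_card_of_mem_minimalPrimes_span (Set.finite_range _) hmin
  have h3 : (Set.range (X : Fin 3 → MvPolynomial (Fin 3) K)).ncard ≤ 3 := by
    rw [← Set.image_univ]
    exact (Set.ncard_image_le Set.finite_univ).trans (by simp)
  have h4 : P.height + 1 ≤ ((3 : ℕ) : ℕ∞) :=
    (Ideal.height_add_one_le_of_lt_of_isPrime hlt).trans (h2.trans (Nat.cast_le.2 h3))
  have h5 : ((3 + 1 : ℕ) : ℕ∞) ≤ (3 : ℕ) := by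
    push_cast
    exact (add_le_add h1 le_rfl).trans h4
  have := Nat.cast_le.1 h5
  omega

/-- The monomial model over any field. -/
theorem exists_family_of_regular {a b c : ℕ} (Q : GI K 3) {f : Fin 3 → MvPolynomial (Fin 3) K}
    (habc : a + b = c + 3) (hab : a ≤ b) (hbc : b ≤ c) (h₁ : f 0 ∈ Q.piece a)
    (h₂ : f 1 ∈ Q.piece b) (h₃ : f 2 ∈ Q.piece c)
    (hreg : RingTheory.Sequence.IsWeaklyRegular (MvPolynomial (Fin 3) K) (List.ofFn f)) :
    ∃ F : ℕ → Finset (ℕ × ℕ), (∀ d, F d ⊆ P a b c d) ∧ (∀ d, (F d).card = Q.hf d) ∧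
      ∀ d x y, x ∈ F (d + 1) → y ∈ P a b c d → Adj y x → y ∈ F d := by
  set L := AlgebraicClosure K
  have hm : ∀ {d : ℕ} {x : MvPolynomial (Fin 3) K}, x ∈ Q.piece d →
      MvPolynomial.map (algebraMap K L) x ∈ (Q.baseChange L).piece d := fun hx =>
    Submodule.subset_span ⟨_, hx, rfl⟩
  have hT : Triple (Q.baseChange L) a b c (MvPolynomial.map (algebraMap K L) (f 0))
      (MvPolynomial.map (algebraMap K L) (f 1)) (MvPolynomial.map (algebraMap K L) (f 2)) := by
    refine ⟨hm h₁, hm h₂, hm h₃, fun p p1 p2 p3 => funext fun i => ?_⟩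
    obtain ⟨N, hN⟩ := X_mem_radical_of_regular' (e := ![a, b, c]) (fun j => by
      fin_cases j
      · exact Q.le a h₁
      · exact Q.le b h₂
      · exact Q.le c h₃) hreg i
    have hker : Ideal.span (Set.range f) ≤ RingHom.ker (eval₂Hom (algebraMap K L) p) := by
      refine Ideal.span_le.2 ?_
      rintro _ ⟨j, rfl⟩
      fin_cases j <;> simp_all [eval_map]
    have := hker hN
    rw [RingHom.mem_ker, map_pow, coe_eval₂Hom, eval₂_X] at this
    exact eq_zero_of_pow_eq_zero this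
  obtain ⟨F, h1, h2, h3⟩ := exists_family habc hab hbc hT
  exact ⟨F, h1, fun d => (h2 d).trans (Q.hf_baseChange L d), h3⟩

end Vale.Agent.P200.Ternary
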