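import Vale.Agent.P200.Ternary.Four

/-!
The monomial model for three forms of degrees `a ≤ b ≤ c` with `a + b = c + 4`, and the common
statement for `c + 3 ≤ a + b ≤ c + 4` over any field.
-/

namespace Vale.Agent.P200.Ternary

open Finset MvPolynomial Module Vale.Agent.P200.SmallH2

section Box

variable (a b c : ℕ)

/-- Initial segments up to degree `c`, reflected complements above, for `a + b = c + 4`. -/
def fam4 (h g : ℕ → ℕ) (d : ℕ) : Finset (ℕ × ℕ) :=
  if d ≤ c then seg a b c d (h d)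
  else (P a b c d).filter fun x => refl a b x ∉ seg a b c (2 * c + 1 - d) (g (2 * c + 1 - d))

variable {a b c}

lemma refl_mem4 (habc : a + b = c + 4) {d : ℕ} {x : ℕ × ℕ} (hx : x ∈ P a b c d)
    (hd : d ≤ 2 * c + 1) :
    refl a b x ∈ P a b c (2 * c + 1 - d) ∧ refl a b (refl a b x) = x := by
  obtain ⟨i, j⟩ := x
  simp [mem_P, refl] at hx ⊢
  omega

lemma not_mem_P4 (habc : a + b = c + 4) {d : ℕ} (hd : 2 * c + 1 < d) (x : ℕ × ℕ) :
    x ∉ P a b c d := by
  simp only [mem_P]
  omega

variable (habc : a + b = c + 4) (ha : 4 ≤ a) (hb : 4 ≤ b) (hc : 2 ≤ c) {h g : ℕ → ℕ}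
include habc ha hb hc

lemma glue4 (hsum : g c + h (c + 1) + 4 = a * b)
    (hM : h (c + 1) = 0 ∨ h c + 4 = a * b ∨ h (c + 1) + 2 ≤ h c ∨
      (h (c + 1) + 1 ≤ h c ∧ (h c + 1 ≤ b ∨ g c + 1 ≤ b)))
    {x y : ℕ × ℕ} (hx : x ∈ P a b c (c + 1)) (hr : refl a b x ∉ seg a b c c (g c))
    (hy : y ∈ P a b c c) (hA : Adj y x) : y ∈ seg a b c c (h c) := by
  have hxr := (refl_mem4 habc hx (show c + 1 ≤ 2 * c + 1 by omega)).1
  rw [show 2 * c + 1 - (c + 1) = c by omega] at hxr
  obtain ⟨i, j⟩ := x
  obtain ⟨k, l⟩ := y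
  simp only [seg, mem_filter, hxr, true_and, not_lt] at hr
  simp only [refl, ex, if_pos] at hr
  refine mem_filter.2 ⟨hy, ?_⟩
  simp only [ex, if_pos]
  simp [mem_P] at hx hy
  simp only [Adj] at hA
  obtain ⟨hki, hlj, hsum'⟩ := hA
  obtain ⟨hia, hjb, hxd, hxc⟩ := hx
  -- the values of the counting function in degree `c`
  have hlt : ∀ t, t + 2 ≤ a → R b c t = t * b := fun t ht => R_eq_mul b c t (by omega)
  have htop : ∀ t, t + 1 = a → R b c t + 1 = t * b := by
    intro t ht
    obtain ⟨t', rfl⟩ : ∃ t', t = t' + 1 := ⟨t - 1, by omega⟩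
    rw [R_tail (by omega), add_one_mul]
    omega
  have hRa : R b c a + 3 = a * b := by
    obtain ⟨t, rfl⟩ : ∃ t, a = t + 1 := ⟨a - 1, by omega⟩
    have := htop t rfl
    rw [R_succ, add_one_mul]
    omega
  have hle : ∀ t, t < a → R b c t ≤ t * b := by
    intro t ht
    rcases (show t + 2 ≤ a ∨ t + 1 = a by omega) with h' | h'
    · exact (hlt t h').le
    · have := htop t h'; omega
  have hk := hle k (by omega)
  have hi' := hle (a - 1 - i) (by omega)
  have hsp : (a - 1 - i) * b + i * b + b = a * b := by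
    rw [← add_mul, ← add_one_mul]
    congr 1
    omega
  have hkb : k * b ≤ i * b := Nat.mul_le_mul_right b hki
  by_cases hflat : k = i ∧ l = j ∧ 1 ≤ i ∧ i + 2 ≤ a
  · obtain ⟨rfl, rfl, hi1, hi2⟩ := hflat
    rw [hlt k hi2] at *
    rw [hlt (a - 1 - k) (by omega)] at hr
    have hkb1 : b ≤ k * b := Nat.le_mul_of_pos_left b (by omega)
    have hkb2 : (k + 2) * b ≤ a * b := Nat.mul_le_mul_right b hi2
    rw [add_mul] at hkb2
    rcases hM with hM | hM | hM | ⟨hM, hS | hS⟩
    · omega
    · omega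
    · omega
    · rcases Nat.eq_or_lt_of_le hi1 with h1 | h1
      · subst h1; omega
      · have : 2 * b ≤ k * b := Nat.mul_le_mul_right b h1
        omega
    · rcases Nat.eq_or_lt_of_le hi2 with h1 | h1
      · have : k * b + 2 * b = a * b := by rw [← add_mul, h1]
        omega
      · have : (k + 3) * b ≤ a * b := Nat.mul_le_mul_right b h1
        rw [add_mul] at this
        omega
  · have hbound : R b c k + l + (R b c (a - 1 - i) + (b - 1 - j)) + 2 ≤ a * b := by
      rcases (show i = 0 ∨ i + 1 = a ∨ (1 ≤ i ∧ i + 2 ≤ a) by omega) with h' | h' | h'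
      · subst h'
        obtain rfl : k = 0 := by omega
        have := htop (a - 1 - 0) (by omega)
        have : R b c 0 = 0 := by simp [R]
        omega
      · rcases Nat.eq_or_lt_of_le hki with h'' | h''
        · subst h''
          have := htop k h'
          omega
        · have : (k + 1) * b ≤ i * b := Nat.mul_le_mul_right b h''
          rw [add_one_mul] at this
          omega
      · rcases Nat.eq_or_lt_of_le hki with h'' | h''
        · subst h''
          have : l ≠ j := fun h => hflat ⟨rfl, h, h'.1, h'.2⟩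
          omega
        · have : (k + 1) * b ≤ i * b := Nat.mul_le_mul_right b h''
          rw [add_one_mul] at this
          omega
    rcases hM with hM | hM | hM | ⟨hM, -⟩
    all_goals
      have := R_mono b c (show k + 1 ≤ a by omega)
      have := R_mono b c (show a - 1 - i + 1 ≤ a by omega)
      rw [R_succ] at *
      omega

lemma fam4_down (hG : Grow a b c h) (gG : Grow a b c g) (hsum : g c + h (c + 1) + 4 = a * b)
    (hM : h (c + 1) = 0 ∨ h c + 4 = a * b ∨ h (c + 1) + 2 ≤ h c ∨
      (h (c + 1) + 1 ≤ h c ∧ (h c + 1 ≤ b ∨ g c + 1 ≤ b)))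
    {d : ℕ} {x y : ℕ × ℕ} (hx : x ∈ fam4 a b c h g (d + 1)) (hy : y ∈ P a b c d) (hA : Adj y x) :
    y ∈ fam4 a b c h g d := by
  rcases lt_trichotomy d c with hd | rfl | hd
  · simp only [fam4, if_pos (show d + 1 ≤ c by omega)] at hx
    simp only [fam4, if_pos hd.le]
    exact seg_down hG hd hx hy hA
  · simp only [fam4, if_neg (show ¬ d + 1 ≤ d by omega), mem_filter] at hx
    simp only [fam4, le_refl, if_true]
    have hr := hx.2
    rw [show 2 * d + 1 - (d + 1) = d by omega] at hr
    exact glue4 habc ha hb hc hsum hM hx.1 hr hy hA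
  · simp only [fam4, if_neg (show ¬ d + 1 ≤ c by omega), mem_filter] at hx
    simp only [fam4, if_neg (show ¬ d ≤ c by omega), mem_filter]
    have hd2 : d + 1 ≤ 2 * c + 1 := by
      by_contra hn
      exact not_mem_P4 habc (by omega) x hx.1
    refine ⟨hy, fun hm => hx.2 ?_⟩
    rw [show 2 * c + 1 - d = 2 * c + 1 - (d + 1) + 1 by omega] at hm
    refine seg_down gG (by omega) hm (refl_mem4 habc hx.1 hd2).1 ?_
    simp only [Adj, refl] at hA ⊢
    simp [mem_P] at hy hx
    omega

lemma card_fam4 (hh : ∀ d ≤ c, h d + ex c d ≤ R b d a) (gh : ∀ d ≤ c, g d + ex c d ≤ R b d a)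
    (hsum : ∀ m ≤ c, g m + h (2 * c + 1 - m) + ex c m = R b m a)
    (h0 : ∀ d, 2 * c + 1 < d → h d = 0) (d : ℕ) : (fam4 a b c h g d).card = h d := by
  classical
  unfold fam4
  split
  · next hd => exact card_seg hc (by omega) hd (hh d hd)
  · next hd =>
    rcases Nat.lt_or_ge (2 * c + 1) d with h2 | h2
    · rw [h0 d h2, card_eq_zero, filter_eq_empty_iff]
      exact fun x hx => absurd hx (not_mem_P4 habc h2 x)
    obtain ⟨m, hm, rfl⟩ : ∃ m, m ≤ c ∧ d = 2 * c + 1 - m :=
      ⟨2 * c + 1 - d, by omega, by omega⟩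
    rw [show 2 * c + 1 - (2 * c + 1 - m) = m by omega]
    have e := hsum m hm
    have hP : (P a b c (2 * c + 1 - m)).card = g m + h (2 * c + 1 - m) := by
      rw [← card_P (a := a) hc (by omega) hm e]
      refine card_bij' (fun x _ => refl a b x) (fun x _ => refl a b x) ?_ ?_ ?_ ?_
      · intro x hx
        have := (refl_mem4 habc hx (by omega)).1
        rwa [show 2 * c + 1 - (2 * c + 1 - m) = m by omega] at this
      · exact fun x hx => (refl_mem4 habc hx (by omega)).1
      · exact fun x hx => (refl_mem4 habc hx (by omega)).2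
      · exact fun x hx => (refl_mem4 habc hx (by omega)).2
    have hF : ((P a b c (2 * c + 1 - m)).filter fun x => refl a b x ∈ seg a b c m (g m)).card =
        g m := by
      refine Eq.trans ?_ (card_seg (a := a) hc (show 1 ≤ b by omega) hm (gh m hm))
      refine card_bij' (fun x _ => refl a b x) (fun x _ => refl a b x) ?_ ?_ ?_ ?_
      · exact fun x hx => (mem_filter.1 hx).2
      · intro x hx
        have h1 := refl_mem4 habc (mem_filter.1 hx).1 (show m ≤ 2 * c + 1 by omega)
        exact mem_filter.2 ⟨h1.1, by rw [h1.2]; exact hx⟩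
      · exact fun x hx => (refl_mem4 habc (mem_filter.1 hx).1 (by omega)).2
      · exact fun x hx => (refl_mem4 habc (mem_filter.1 hx).1 (by omega)).2
    have := card_filter_add_card_filter_not (s := P a b c (2 * c + 1 - m))
      (fun x => refl a b x ∈ seg a b c m (g m))
    rw [hF, hP] at this
    omega

end Box

variable {K : Type*} [Field K]

local instance finiteHomModel (d : ℕ) : Module.Finite K (homogeneousSubmodule (Fin 3) K d) :=
  Module.Finite.iff_fg.2 (homogeneousSubmodule_fg (Fin 3) K d)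

/-- The monomial model over an algebraically closed field for `a + b = c + 4`. -/
theorem exists_family4 [IsAlgClosed K] {a b c : ℕ} {Q : GI K 3}
    {f₁ f₂ f₃ : MvPolynomial (Fin 3) K} (habc : a + b = c + 4) (hab : a ≤ b) (hbc : b ≤ c)
    (hT : Triple Q a b c f₁ f₂ f₃) :
    ∃ F : ℕ → Finset (ℕ × ℕ), (∀ d, F d ⊆ P a b c d) ∧ (∀ d, (F d).card = Q.hf d) ∧
      ∀ d x y, x ∈ F (d + 1) → y ∈ P a b c d → Adj y x → y ∈ F d := by
  have ha : 4 ≤ a := by omega
  obtain ⟨f, J, hfJ, h1J, h2J, hS, hk, hTr⟩ := (hT.two (by omega) (by omega) (by omega)).exists_triple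
    (by omega) (by omega) (show 1 ≤ c by omega) (hT.bpf (by omega) hbc le_rfl)
  have hbig : ∀ d, c + 2 ≤ d → R b d a = a * b := fun d hd => R_eq_mul b d a (by omega)
  have hR1 : R b (c + 1) a + 1 = a * b := by
    obtain ⟨k, rfl⟩ : ∃ k, a = k + 1 := ⟨a - 1, by omega⟩
    rw [R_tail (by omega), add_one_mul]
    omega
  have hRc : R b c a + 3 = a * b := by
    obtain ⟨k, rfl⟩ : ∃ k, a = k + 2 := ⟨a - 2, by omega⟩
    rw [show k + 2 = k + 1 + 1 from rfl, R_succ, R_tail (by omega), add_one_mul, add_one_mul]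
    omega
  have hab4 : 16 ≤ a * b := Nat.mul_le_mul (show 4 ≤ a by omega) (show 4 ≤ b by omega)
  have hlowH : ∀ m ≤ c, H3 a b c m + ex c m = R b m a := by
    intro m hm
    simp only [H3, ex]
    rcases Nat.eq_or_lt_of_le hm with rfl | h
    · rw [if_pos le_rfl, Nat.sub_self, R_zero b (by omega) a (by omega), if_pos rfl]
      omega
    · rw [if_neg (by omega), if_neg (by omega)]
      omega
  have hHc : H3 a b c c + 4 = a * b := by
    have := hlowH c le_rfl
    simp [ex] at this
    omega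
  have hHc1 : H3 a b c (c + 1) + 4 = a * b := by
    simp only [H3, if_pos (show c ≤ c + 1 by omega), show c + 1 - c = 1 by omega]
    rw [R_one (by omega) (by omega)]
    omega
  have hD : H3 a b c (2 * c + 1) = 1 := by
    simp only [H3, if_pos (show c ≤ 2 * c + 1 by omega), show 2 * c + 1 - c = c + 1 by omega]
    rw [hbig _ (by omega)]
    omega
  have hhalf : ∀ m < c, H3 a b c (2 * c + 1 - m) = H3 a b c m := by
    intro m hm
    have := R_compl (a := a) (b := b) (c := c + 1) (m := m) (by omega) (by omega)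
    simp only [H3, if_pos (show c ≤ 2 * c + 1 - m by omega), if_neg (show ¬ c ≤ m by omega),
      show 2 * c + 1 - m - c = c + 1 - m by omega]
    rw [hbig _ (by omega)]
    omega
  have hsym : ∀ m ≤ 2 * c + 1, H3 a b c (2 * c + 1 - m) = H3 a b c m := by
    intro m hm
    rcases (show m < c ∨ m = c ∨ m = c + 1 ∨ c + 1 < m by omega) with h | h | h | h
    · exact hhalf m h
    · rw [h, show 2 * c + 1 - c = c + 1 by omega]; omega
    · rw [h, show 2 * c + 1 - (c + 1) = c by omega]; omega
    · have := hhalf (2 * c + 1 - m) (by omega)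
      rw [show 2 * c + 1 - (2 * c + 1 - m) = m by omega] at this
      exact this.symm
  obtain ⟨L, hL, hsum⟩ := exists_link hS hD (fun j hj => hk j (by omega)) hsym
  have hTL : Triple L a b c f₁ f₂ f :=
    ⟨hL _ ⟨Q.le _ hTr.m₁, h1J⟩, hL _ ⟨Q.le _ hTr.m₂, h2J⟩, hL _ ⟨Q.le _ hTr.m₃, hfJ⟩, hTr.nz⟩
  have hSL : Sat L (H3 a b c) J := ⟨hS.closed, hL, hS.dims⟩
  have hh : ∀ d ≤ c, Q.hf d + ex c d ≤ R b d a := fun d hd => by
    have := hlowH d hd; have := hS.hf_le d; omega
  have gh : ∀ d ≤ c, L.hf d + ex c d ≤ R b d a := fun d hd => by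
    have := hlowH d hd; have := hSL.hf_le d; omega
  have hsum' : ∀ m ≤ c, L.hf m + Q.hf (2 * c + 1 - m) + ex c m = R b m a := fun m hm => by
    have := hlowH m hm; have := hsum m (by omega); omega
  have s1 := hsum c (by omega)
  have s2 := hsum (c + 1) (by omega)
  rw [show 2 * c + 1 - c = c + 1 by omega] at s1
  rw [show 2 * c + 1 - (c + 1) = c by omega] at s2
  have hM := middle habc hab hbc hT hTL (by omega) (by omega)
  have h0 : ∀ d, 2 * c + 1 < d → Q.hf d = 0 := fun d hd => by
    have := hS.hf_le d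
    simp only [H3, if_pos (show c ≤ d by omega)] at this
    rw [hbig d (by omega), hbig (d - c) (by omega)] at this
    omega
  refine ⟨fam4 a b c Q.hf L.hf, fun d => ?_, card_fam4 habc ha (by omega) (by omega) hh gh hsum' h0,
    fun d x y hx hy hA => fam4_down habc ha (by omega) (by omega) (grow4 habc hab hbc hT)
      (grow4 habc hab hbc hTL) (by omega) hM hx hy hA⟩
  unfold fam4
  split <;> exact Finset.filter_subset _ _

/-- The monomial model over any field for `c + 3 ≤ a + b ≤ c + 4`. -/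
theorem exists_model {a b c : ℕ} (Q : GI K 3) {f : Fin 3 → MvPolynomial (Fin 3) K}
    (h3 : c + 3 ≤ a + b) (h4 : a + b ≤ c + 4) (hab : a ≤ b) (hbc : b ≤ c) (h₁ : f 0 ∈ Q.piece a)
    (h₂ : f 1 ∈ Q.piece b) (h₃ : f 2 ∈ Q.piece c)
    (hreg : RingTheory.Sequence.IsWeaklyRegular (MvPolynomial (Fin 3) K) (List.ofFn f)) :
    ∃ F : ℕ → Finset (ℕ × ℕ), (∀ d, F d ⊆ P a b c d) ∧ (∀ d, (F d).card = Q.hf d) ∧
      ∀ d x y, x ∈ F (d + 1) → y ∈ P a b c d → Adj y x → y ∈ F d := by
  rcases (show a + b = c + 3 ∨ a + b = c + 4 by omega) with h | h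
  · exact exists_family_of_regular Q h hab hbc h₁ h₂ h₃ hreg
  set L := AlgebraicClosure K
  have hm : ∀ {d : ℕ} {x : MvPolynomial (Fin 3) K}, x ∈ Q.piece d →
      MvPolynomial.map (algebraMap K L) x ∈ (Q.baseChange L).piece d := fun hx =>
    Submodule.subset_span ⟨_, hx, rfl⟩
  have hT : Triple (Q.baseChange L) a b c (MvPolynomial.map (algebraMap K L) (f 0))
      (MvPolynomial.map (algebraMap K L) (f 1)) (MvPolynomial.map (algebraMap K L) (f 2)) := by
    refine ⟨hm h₁, hm h₂, hm h₃, fun p p1 p2 p3 => funext fun i => ?_⟩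
    obtain ⟨N, hN⟩ := X_mem_radical_of_regular' (e := ![a, b, c]) (fun j => by
      fin_cases j
      · exact Q.le a h₁
      · exact Q.le b h₂
      · exact Q.le c h₃) hreg i
    have hker : Ideal.span (Set.range f) ≤ RingHom.ker (eval₂Hom (algebraMap K L) p) := by
      refine Ideal.span_le.2 ?_
      rintro _ ⟨j, rfl⟩
      fin_cases j <;> simp_all [eval_map]
    have := hker hN
    rw [RingHom.mem_ker, map_pow, coe_eval₂Hom, eval₂_X] at this
    exact eq_zero_of_pow_eq_zero this
  obtain ⟨F, e1, e2, e3⟩ := exists_family4 h hab hbc hT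
  exact ⟨F, e1, fun d => (e2 d).trans (Q.hf_baseChange L d), e3⟩

end Vale.Agent.P200.Ternary
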