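import Vale.Agent.P200.SmallH2.Dual
import Vale.Agent.P200.Ternary.Box
import Mathlib.RingTheory.Polynomial.UniqueFactorization

/-!
Complete intersections of three forms of arbitrary degrees in three variables: regularity,
Hilbert function, socle and linkage.
-/

namespace Vale.Agent.P200.Ternary

open MvPolynomial Module Vale.Agent.P200.SmallH2

attribute [local instance] MvPolynomial.gradedAlgebra

variable {K : Type*} [Field K] {n : ℕ}

local instance finiteHomReg (d : ℕ) : Module.Finite K (homogeneousSubmodule (Fin n) K d) :=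
  Module.Finite.iff_fg.2 (homogeneousSubmodule_fg (Fin n) K d)

/-- Exactness passes to the quotient by a regular form. -/
lemma kexact_succ {J : Ideal (MvPolynomial (Fin n) K)} {f : MvPolynomial (Fin n) K}
    (hJ : Closed J) {e : ℕ} (he1 : 1 ≤ e) (hf : f.IsHomogeneous e) (hreg : ∀ a, f * a ∈ J → a ∈ J) {p j : ℕ}
    (h0 : KExact J p j) (h1 : e ≤ j + 1 → KExact J (p + 1) (j + 1 - e)) :
    KExact (J ⊔ Ideal.span {f}) p j := by
  intro u hu hdu
  have hcomp : ∀ T ⊆ Finset.range n, T.card = p + 1 → ∃ w,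
      w.IsHomogeneous (j + 1 - e) ∧ dk (xv K n) n u T - f * w ∈ J ∧ (j + 1 < e → w = 0) := by
    intro T hT hc
    obtain ⟨a, ha, b, hb, hab⟩ := Submodule.mem_sup.1 (hdu T hT hc)
    obtain ⟨w, rfl⟩ := Ideal.mem_span_singleton'.1 hb
    have hd := dk_isHomogeneous (r := n) hu T
    have he := congrArg (homogeneousComponent (j + 1)) hab
    rw [map_add, homogeneousComponent_eq_self hd, mul_comm w f] at he
    rcases Nat.lt_or_ge (j + 1) e with hj | hj
    · rw [homogeneousComponent_mul_lt hf w hj, add_zero] at he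
      exact ⟨0, isHomogeneous_zero _ _ _, by rw [mul_zero, sub_zero, ← he]; exact hJ a ha _, fun _ => rfl⟩
    · refine ⟨homogeneousComponent (j + 1 - e) w, homogeneousComponent_isHomogeneous _ _, ?_, by omega⟩
      rw [show j + 1 = e + (j + 1 - e) by omega, homogeneousComponent_mul hf] at he
      rw [← he, add_sub_cancel_right]
      exact hJ a ha _
  choose! w hw using hcomp
  classical
  set w' : Finset ℕ → MvPolynomial (Fin n) K :=
    fun T => if T ⊆ Finset.range n ∧ T.card = p + 1 then w T else 0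
  have hw' : ∀ T ⊆ Finset.range n, T.card = p + 1 → dk (xv K n) n u T - f * w' T ∈ J := by
    intro T h1 h2
    simp only [w', if_pos (And.intro h1 h2)]
    exact (hw T h1 h2).2.1
  rcases Nat.lt_or_ge (j + 1) e with hj | hj
  · obtain ⟨v, hv⟩ := h0 u hu fun T h1 h2 => by
      have := (hw T h1 h2)
      simpa [this.2.2 hj] using this.2.1
    exact ⟨v, fun T a b => Submodule.mem_sup_left (hv T a b)⟩
  have hwh : ∀ T, (w' T).IsHomogeneous (j + 1 - e) := fun T => by
    simp only [w']
    split
    · next h => exact (hw T h.1 h.2).1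
    · exact isHomogeneous_zero _ _ _
  obtain ⟨v, hv⟩ := h1 hj w' hwh fun T h1 h2 => by
    apply hreg
    have := dk_mem (xv K n) (r := n) (u := dk (xv K n) n u - f • w') (T := T) J fun T' h1' h2' =>
      hw' T' (h1'.trans h1) (by omega)
    rw [map_sub, map_smul, Pi.sub_apply, dk_dk, zero_sub, neg_mem_iff] at this
    exact this
  set v' : Finset ℕ → MvPolynomial (Fin n) K :=
    fun T => if e ≤ j then homogeneousComponent (j - e) (v T) else 0
  have hv' : ∀ T ⊆ Finset.range n, T.card = p + 1 → w' T - dk (xv K n) n v' T ∈ J := by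
    intro T h1 h2
    have h := hJ _ (hv T h1 h2) (j + 1 - e)
    rw [map_sub, homogeneousComponent_eq_self (hwh T)] at h
    by_cases hj2 : e ≤ j
    · rw [show j + 1 - e = j - e + 1 by omega, dk_component] at h
      simpa only [v', if_pos hj2] using h
    · obtain rfl : e = j + 1 := by omega
      have hz : dk (xv K n) n v' T = 0 := by
        rw [show v' = 0 by funext T'; simp [v'], map_zero]; rfl
      rw [hz, sub_zero]
      have h0' : homogeneousComponent (j + 1 - (j + 1)) (dk (xv K n) n v T) = 0 :=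
        dk_induction (xv K n) (fun a => homogeneousComponent (j + 1 - (j + 1)) a = 0) (map_zero _)
          (fun a b ha hb => by rw [map_sub, ha, hb, sub_zero])
          fun i T' _ _ => homogeneousComponent_mul_lt (xv_isHomogeneous i) _ (by omega)
      rwa [h0', sub_zero] at h
  have hh : ∀ T, ((u - f • v') T).IsHomogeneous j := fun T => by
    refine (hu T).sub ?_
    simp only [Pi.smul_apply, smul_eq_mul, v']
    split
    · next h =>
      have := hf.mul (homogeneousComponent_isHomogeneous (j - e) (v T))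
      rwa [show e + (j - e) = j by omega] at this
    · rw [mul_zero]; exact isHomogeneous_zero _ _ _
  obtain ⟨z, hz⟩ := h0 (u - f • v') hh fun T h1 h2 => by
    rw [map_sub, map_smul, Pi.sub_apply, Pi.smul_apply, smul_eq_mul]
    have := J.add_mem (hw' T h1 h2) (J.mul_mem_left f (hv' T h1 h2))
    convert this using 1
    ring
  refine ⟨z, fun T h1 h2 => ?_⟩
  have := hz T h1 h2
  rw [Pi.sub_apply, Pi.smul_apply, smul_eq_mul] at this
  have h' := Submodule.add_mem (J ⊔ Ideal.span {f}) (Submodule.mem_sup_left this)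
    (Submodule.mem_sup_right (Ideal.mul_mem_right (v' T) _ (Ideal.mem_span_singleton_self f)))
  convert h' using 1
  ring


/-- Exactness at the top in positive degrees. -/
lemma kexact_top {j : ℕ} (hj : 1 ≤ j) (J : Ideal (MvPolynomial (Fin n) K)) : KExact J n j := by
  intro u hu _
  have hmem : u (Finset.range n) ∈ Ideal.span (xv K n '' {i | i < n}) := by
    have h0 : constantCoeff (u (Finset.range n)) = 0 :=
      IsHomogeneous.coeff_eq_zero (hu _) (by simp; omega)
    refine Ideal.span_mono ?_ (mem_span_X_of_constantCoeff h0)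
    rintro _ ⟨i, rfl⟩
    exact ⟨i, i.2, xv_of_lt i.2⟩
  obtain ⟨v, hv⟩ := exists_dk_top (xv K n) _ hmem
  refine ⟨v, fun T h1 h2 => ?_⟩
  rw [Finset.eq_of_subset_of_card_le h1 (by simp [h2]), hv, sub_self]
  exact J.zero_mem

/-- A space of forms without a common nonzero zero. -/
def Bpf (W : Submodule K (MvPolynomial (Fin n) K)) : Prop :=
  ∀ p : Fin n → K, (∀ q ∈ W, eval p q = 0) → p = 0

lemma Bpf.mono {W W' : Submodule K (MvPolynomial (Fin n) K)} (h : Bpf W) (hW : W ≤ W') :
    Bpf W' := fun p hp => h p fun q hq => hp q (hW hq)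

lemma X_mem_radical [IsAlgClosed K] {s : Set (MvPolynomial (Fin n) K)}
    (hs : ∀ p : Fin n → K, (∀ q ∈ s, eval p q = 0) → p = 0) (i : Fin n) :
    (X i : MvPolynomial (Fin n) K) ∈ (Ideal.span s).radical := by
  rw [← vanishingIdeal_zeroLocus_eq_radical (K := K), mem_vanishingIdeal_iff]
  intro p hp
  have : p = 0 := hs p fun q hq => by
    simpa using (mem_zeroLocus_iff.1 hp) q (Ideal.subset_span hq)
  simp [this]

lemma le_height_of_X_mem {P : Ideal (MvPolynomial (Fin n) K)} [P.IsPrime] (hX : ∀ i, X i ∈ P) :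
    (n : ℕ∞) ≤ P.height := by
  classical
  let idx : Fin n → ℕ := fun i => i
  have hker : RingHom.ker (kill (K := K) idx n).toRingHom ≤ P := by
    intro a ha
    have h0 : constantCoeff a = 0 := by
      have hk : kill (K := K) idx n = (aeval fun _ => (0 : MvPolynomial (Fin n) K)) :=
        algHom_ext fun v => by simp [kill_X, idx]
      have : kill idx n a = 0 := ha
      rw [hk, aeval_zero', ← map_zero (algebraMap K (MvPolynomial (Fin n) K))] at this
      exact (FaithfulSMul.algebraMap_injective K _) this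
    refine Ideal.span_le.2 ?_ (mem_span_X_of_constantCoeff h0)
    rintro _ ⟨i, rfl⟩
    exact hX i
  refine le_trans (le_height_of_chain (fun k => RingHom.ker (kill (K := K) idx k).toRingHom) n
    (fun k => RingHom.ker_isPrime _) fun k hk => lt_of_le_of_ne (fun a ha => ?_) fun e => ?_)
    (Ideal.height_mono hker)
  · show kill idx (k + 1) a = 0
    rw [← kill_kill idx (Nat.le_succ k), show kill idx k a = 0 from ha, map_zero]
  · have h : (X ⟨k, hk⟩ : MvPolynomial (Fin n) K) ∈
        RingHom.ker (kill (K := K) idx (k + 1)).toRingHom := by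
      show kill idx (k + 1) (X ⟨k, hk⟩) = 0
      rw [kill_X, if_pos (by simp [idx])]
    rw [← e] at h
    have h : kill (K := K) idx k (X ⟨k, hk⟩) = 0 := h
    rw [kill_X, if_neg (by simp [idx])] at h
    exact X_ne_zero _ h

/-- Two elements vanishing at the origin do not cut out the origin of three-space. -/
lemma not_two {u v : MvPolynomial (Fin 3) K} (hu : constantCoeff u = 0) (hv : constantCoeff v = 0)
    (h : ∀ i, (X i : MvPolynomial (Fin 3) K) ∈ (Ideal.span {u, v}).radical) : False := by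
  classical
  have hne : Ideal.span ({u, v} : Set (MvPolynomial (Fin 3) K)) ≠ ⊤ := by
    intro htop
    have hle : Ideal.span ({u, v} : Set (MvPolynomial (Fin 3) K)) ≤
        RingHom.ker (constantCoeff (σ := Fin 3) (R := K)) :=
      Ideal.span_le.2 (by rintro q (rfl | rfl); exacts [hu, hv])
    simpa using hle (htop ▸ Submodule.mem_top : (1 : MvPolynomial (Fin 3) K) ∈ Ideal.span {u, v})
  obtain ⟨P, hP⟩ := Ideal.nonempty_minimalPrimes hne
  haveI := hP.1.1
  have h1 := (le_height_of_X_mem fun i => hP.1.1.radical.le (Ideal.radical_mono hP.1.2 (h i))).trans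
    (Ideal.height_le_card_of_mem_minimalPrimes_span ((Set.finite_singleton v).insert u) hP)
  have h2 : ({u, v} : Set (MvPolynomial (Fin 3) K)).ncard ≤ 2 := by
    refine (Set.ncard_insert_le _ _).trans ?_
    simp
  have := Nat.cast_le.1 h1
  omega

/-- Of three forms without a common zero, the second is regular modulo the first. -/
lemma regular_second [IsAlgClosed K] {a b c : ℕ} (ha : 1 ≤ a) (hb : 1 ≤ b) (hc : 1 ≤ c)
    {f₁ f₂ f₃ : MvPolynomial (Fin 3) K} (h₁ : f₁.IsHomogeneous a) (h₂ : f₂.IsHomogeneous b)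
    (h₃ : f₃.IsHomogeneous c)
    (hz : ∀ p : Fin 3 → K, eval p f₁ = 0 → eval p f₂ = 0 → eval p f₃ = 0 → p = 0) :
    f₁ ≠ 0 ∧ ∀ x, f₂ * x ∈ Ideal.span {f₁} → x ∈ Ideal.span {f₁} := by
  classical
  have c0 : ∀ {e : ℕ} {f : MvPolynomial (Fin 3) K}, 1 ≤ e → f.IsHomogeneous e →
      constantCoeff f = 0 := fun he hf => hf.coeff_eq_zero (by simp; omega)
  have hne : f₁ ≠ 0 := fun h0 => not_two (c0 hb h₂) (c0 hc h₃) (X_mem_radical fun p hp =>
    hz p (by simp [h0]) (hp _ (by simp)) (hp _ (by simp)))
  refine ⟨hne, fun x hx => ?_⟩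
  rw [Ideal.mem_span_singleton] at hx ⊢
  refine IsRelPrime.dvd_of_dvd_mul_left ?_ hx
  intro g hg₁ hg₂
  by_contra hu
  have hg0 : g ≠ 0 := fun h => hne (zero_dvd_iff.1 (h ▸ hg₁))
  obtain ⟨P, hP⟩ := Ideal.nonempty_minimalPrimes
    (I := Ideal.span {g}) (by rwa [Ne, Ideal.span_singleton_eq_top])
  haveI := hP.1.1
  set 𝒜 := homogeneousSubmodule (Fin 3) K
  set P' := (P.homogeneousCore 𝒜).toIdeal with hP'def
  haveI hP' : P'.IsPrime := hP.1.1.homogeneousCore
  have hP'P : P' ≤ P := Ideal.toIdeal_homogeneousCore_le 𝒜 P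
  have hgP : ∀ {e : ℕ} {f : MvPolynomial (Fin 3) K}, f.IsHomogeneous e → g ∣ f → f ∈ P' :=
    fun hf hgf => Ideal.mem_homogeneousCore_of_homogeneous_of_mem ⟨_, hf⟩
      (hP.1.2 (Ideal.mem_span_singleton.2 hgf))
  have hf₁P := hgP h₁ hg₁
  have hf₂P := hgP h₂ hg₂
  have hm : P' ≤ RingHom.ker (constantCoeff (σ := Fin 3) (R := K)) :=
    le_ker_constantCoeff_of_isHomogeneous (P.homogeneousCore 𝒜).isHomogeneous hP'.ne_top
  obtain ⟨q, hqP, hq⟩ := Ideal.IsPrime.exists_mem_prime_of_ne_bot hP'
    (fun h => hne (by simpa [h] using hf₁P))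
  haveI : (Ideal.span {q}).IsPrime := (Ideal.span_singleton_prime hq.ne_zero).2 hq
  have hqle : Ideal.span {q} ≤ P' := by rwa [Ideal.span_singleton_le_iff_mem]
  have heq : Ideal.span {q} = P' := by
    refine eq_of_le_of_not_lt hqle fun hlt => ?_
    have hbot : (⊥ : Ideal (MvPolynomial (Fin 3) K)) < Ideal.span {q} := bot_lt_iff_ne_bot.2 (by
      simpa using hq.ne_zero)
    haveI : (⊥ : Ideal (MvPolynomial (Fin 3) K)).IsPrime := Ideal.bot_prime
    have h1 := (Ideal.height_le_card_of_mem_minimalPrimes_span (Set.finite_singleton g) hP)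
    have h2 : (2 : ℕ∞) ≤ P.height := by
      calc (2 : ℕ∞) = 1 + 1 := by norm_num
        _ ≤ (Ideal.span {q}).height + 1 := by
          gcongr
          exact le_trans le_add_self (Ideal.height_add_one_le_of_lt_of_isPrime hbot)
        _ ≤ P'.height := Ideal.height_add_one_le_of_lt_of_isPrime hlt
        _ ≤ P.height := Ideal.height_mono hP'P
    have := h2.trans h1
    simp at this
  refine not_two (hm hqP) (c0 hc h₃) fun i => ?_
  have hsub : Ideal.span ({f₁, f₂, f₃} : Set (MvPolynomial (Fin 3) K)) ≤ Ideal.span {q, f₃} := by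
    have hle : Ideal.span {q} ≤ Ideal.span {q, f₃} := Ideal.span_mono (by simp)
    refine Ideal.span_le.2 ?_
    rintro _ (rfl | rfl | rfl)
    · exact hle (heq ▸ hf₁P)
    · exact hle (heq ▸ hf₂P)
    · exact Ideal.subset_span (by simp)
  exact Ideal.radical_mono hsub (X_mem_radical (fun p hp =>
    hz p (hp _ (by simp)) (hp _ (by simp)) (hp _ (by simp))) i)

/-- A closed ideal inside `Q` with Hilbert function `H`. -/
structure Sat (Q : GI K n) (H : ℕ → ℕ) (J : Ideal (MvPolynomial (Fin n) K)) : Prop where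
  closed : Closed J
  le_piece : ∀ d, part J d ≤ Q.piece d
  dims : ∀ d, finrank K (part J d) + H d = finrank K (homogeneousSubmodule (Fin n) K d)

lemma Sat.mono {Q Q' : GI K n} {H : ℕ → ℕ} {J : Ideal (MvPolynomial (Fin n) K)} (h : Sat Q H J)
    (hQ : ∀ d, Q.piece d ≤ Q'.piece d) : Sat Q' H J :=
  ⟨h.closed, fun d => (h.le_piece d).trans (hQ d), h.dims⟩

lemma Sat.hf_le {Q : GI K n} {H : ℕ → ℕ} {J : Ideal (MvPolynomial (Fin n) K)} (h : Sat Q H J)
    (d : ℕ) : Q.hf d ≤ H d := by
  have := Submodule.finrank_mono (h.le_piece d)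
  have := h.dims d
  have := Q.hf_add d
  omega

lemma sat_bot (Q : GI K n) :
    Sat Q (fun d => (n + d - 1).choose d) (⊥ : Ideal (MvPolynomial (Fin n) K)) := by
  have h := stage_zero Q
  exact ⟨h.closed, h.le_piece, fun d => by simpa [ciDim] using h.dims d⟩

/-- Adjoining a regular form. -/
lemma Sat.succ {Q : GI K n} {H H' : ℕ → ℕ} {J : Ideal (MvPolynomial (Fin n) K)} (hJ : Sat Q H J)
    {e : ℕ} {f : MvPolynomial (Fin n) K} (hf : f ∈ Q.piece e) (hreg : ∀ a, f * a ∈ J → a ∈ J)
    (hf0 : f ≠ 0) (hH' : ∀ d, H' d + (if e ≤ d then H (d - e) else 0) = H d) :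
    Sat Q H' (J ⊔ Ideal.span {f}) := by
  have hfh : f.IsHomogeneous e := Q.le e hf
  have hlow : ∀ d, d < e → part (J ⊔ Ideal.span {f}) d = part J d := by
    intro d hd
    refine le_antisymm (fun a ha => ⟨ha.1, ?_⟩) fun a ha => ⟨ha.1, Submodule.mem_sup_left ha.2⟩
    obtain ⟨b, hb, c, hc, rfl⟩ := Submodule.mem_sup.1 ha.2
    obtain ⟨w, rfl⟩ := Ideal.mem_span_singleton'.1 hc
    have h := homogeneousComponent_eq_self (ha.1 : (b + w * f).IsHomogeneous d)
    rw [map_add, mul_comm w f, homogeneousComponent_mul_lt hfh w hd, add_zero] at h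
    rw [mul_comm w f]
    exact h ▸ hJ.closed b hb d
  have hhigh : ∀ d, part (J ⊔ Ideal.span {f}) (e + d) =
      part J (e + d) ⊔ (homogeneousSubmodule (Fin n) K d).map (LinearMap.mulLeft K f) := by
    intro d
    refine le_antisymm (fun a ha => ?_) (sup_le (fun a ha => ⟨ha.1, Submodule.mem_sup_left ha.2⟩) ?_)
    · obtain ⟨b, hb, c, hc, rfl⟩ := Submodule.mem_sup.1 ha.2
      obtain ⟨w, rfl⟩ := Ideal.mem_span_singleton'.1 hc
      rw [← homogeneousComponent_eq_self (ha.1 : (b + w * f).IsHomogeneous (e + d)), map_add,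
        mul_comm w f, homogeneousComponent_mul hfh]
      exact Submodule.add_mem_sup ⟨homogeneousComponent_mem _ _, hJ.closed b hb _⟩
        ⟨homogeneousComponent d w, homogeneousComponent_mem _ _, rfl⟩
    · rintro _ ⟨w, hw, rfl⟩
      exact ⟨mul_mem_homogeneous hfh hw,
        Submodule.mem_sup_right (Ideal.mul_mem_right w _ (Ideal.mem_span_singleton_self f))⟩
  refine ⟨?_, ?_, ?_⟩
  · intro a ha i
    obtain ⟨b, hb, c, hc, rfl⟩ := Submodule.mem_sup.1 ha
    obtain ⟨w, rfl⟩ := Ideal.mem_span_singleton'.1 hc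
    rw [map_add]
    refine Submodule.add_mem_sup (hJ.closed b hb i) ?_
    rw [mul_comm w f]
    by_cases hi : i < e
    · rw [homogeneousComponent_mul_lt hfh w hi]; exact Submodule.zero_mem _
    · obtain ⟨j, rfl⟩ : ∃ j, i = e + j := ⟨i - e, by omega⟩
      rw [homogeneousComponent_mul hfh]
      exact Ideal.mul_mem_right _ _ (Ideal.mem_span_singleton_self f)
  · intro d
    rcases Nat.lt_or_ge d e with hd | hd
    · exact (hlow d hd).le.trans (hJ.le_piece d)
    · obtain ⟨k, rfl⟩ : ∃ k, d = e + k := ⟨d - e, by omega⟩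
      rw [hhigh]
      refine sup_le (hJ.le_piece _) ?_
      rintro _ ⟨w, hw, rfl⟩
      simpa [mul_comm] using Q.hom_mul_mem hw hf
  · intro d
    have hd' := hH' d
    rcases Nat.lt_or_ge d e with hd | hd
    · rw [if_neg (by omega)] at hd'
      rw [hlow d hd]
      have := hJ.dims d
      omega
    · obtain ⟨k, rfl⟩ : ∃ k, d = e + k := ⟨d - e, by omega⟩
      rw [if_pos (by omega), Nat.add_sub_cancel_left] at hd'
      set M := LinearMap.mulLeft K f
      have hinj : Function.Injective M := fun x y h => mul_left_cancel₀ hf0 h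
      have hinf : part J (e + k) ⊓ (homogeneousSubmodule (Fin n) K k).map M = (part J k).map M := by
        ext a
        constructor
        · rintro ⟨ha, w, hw, rfl⟩
          exact ⟨w, ⟨hw, hreg w ha.2⟩, rfl⟩
        · rintro ⟨w, hw, rfl⟩
          exact ⟨⟨mul_mem_homogeneous hfh hw.1, J.mul_mem_left f hw.2⟩, w, hw.1, rfl⟩
      have e1 := (Submodule.equivMapOfInjective M hinj (homogeneousSubmodule (Fin n) K k)).finrank_eq
      have e2 := (Submodule.equivMapOfInjective M hinj (part J k)).finrank_eq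
      have e3 := Submodule.finrank_sup_add_finrank_inf_eq (part J (e + k))
        ((homogeneousSubmodule (Fin n) K k).map M)
      rw [← hhigh k, hinf, ← e1, ← e2] at e3
      have hd2 := hJ.dims (e + k)
      have hd0 := hJ.dims k
      omega

/-- A base point free space of forms has a member regular modulo a saturated ideal. -/
lemma exists_regular' [IsAlgClosed K] {J : Ideal (MvPolynomial (Fin n) K)} (hJ : Closed J)
    (h0 : ∀ j, KExact J 0 j) (E : Submodule K (MvPolynomial (Fin n) K)) (hE : Bpf E) :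
    ∃ f ∈ E, ∀ a, f * a ∈ J → a ∈ J := by
  classical
  set S := MvPolynomial (Fin n) K
  have hfin := associatedPrimes.finite S (S ⧸ J)
  let comap : Ideal S → Submodule K E := fun P => (P.restrictScalars K).comap E.subtype
  have htop : (⊤ : Submodule K E) ∉ hfin.toFinset.image comap := by
    intro h
    obtain ⟨P, hP, hPtop⟩ := Finset.mem_image.1 h
    obtain ⟨hPp, x, hx⟩ := isAssociatedPrime_iff.1 (hfin.mem_toFinset.1 hP)
    obtain ⟨y, rfl⟩ := Submodule.Quotient.mk_surjective J x
    have hmem : ∀ r, r ∈ P ↔ r * y ∈ J := fun r => by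
      rw [hx, Submodule.mem_colon_singleton, Submodule.mem_bot, ← Submodule.Quotient.mk_smul,
        Submodule.Quotient.mk_eq_zero, smul_eq_mul]
    have hX : ∀ i, (X i : S) ∈ P := fun i => by
      refine hPp.radical.le (Ideal.radical_mono (Ideal.span_le.2 fun q hq => ?_)
        (X_mem_radical (s := (E : Set S)) hE i))
      have : (⟨q, hq⟩ : E) ∈ comap P := hPtop ▸ Submodule.mem_top
      exact this
    refine hPp.ne_top ((Ideal.eq_top_iff_one P).2 ((hmem 1).2 ?_))
    rw [one_mul, ← sum_homogeneousComponent y]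
    refine Submodule.sum_mem _ fun j _ => socle_mem (h0 j)
      (homogeneousComponent_isHomogeneous j y) fun i => ?_
    rw [← homogeneousComponent_mul (isHomogeneous_X K i) y j]
    exact hJ _ ((hmem _).1 (hX i)) _
  obtain ⟨f, hf⟩ := (Set.ne_univ_iff_exists_notMem _).1 (Subspace.biUnion_ne_univ_of_top_notMem htop)
  refine ⟨f, f.2, fun a ha => ?_⟩
  by_contra hna
  have hnr : ¬ IsSMulRegular (S ⧸ J) (f : S) := fun hr => hna (by
    have := hr.right_eq_zero_of_smul (x := Submodule.Quotient.mk a) (by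
      rw [← Submodule.Quotient.mk_smul, Submodule.Quotient.mk_eq_zero]
      exact ha)
    exact (Submodule.Quotient.mk_eq_zero _).1 this)
  have : (f : S) ∈ ⋃ p ∈ associatedPrimes S (S ⧸ J), (p : Set S) := by
    rw [biUnion_associatedPrimes_eq_compl_regular]
    exact hnr
  obtain ⟨P, hP, hfP⟩ := Set.mem_iUnion₂.1 this
  exact hf (Set.mem_iUnion₂.2 ⟨comap P, Finset.mem_image_of_mem _ (hfin.mem_toFinset.2 hP), hfP⟩)

lemma choose_two_R (d : ℕ) : ∀ a, (d + 2).choose 2 = R (d + 2) d a + (d + 2 - a).choose 2 := by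
  intro a
  induction a with
  | zero => simp [R]
  | succ a ih =>
    rw [R_succ, ih]
    rcases Nat.lt_or_ge (d + 1) a with h | h
    · simp [show d + 2 - a = 0 by omega, show d + 2 - (a + 1) = 0 by omega]
      omega
    · obtain ⟨k, hk⟩ : ∃ k, d + 2 - a = k + 1 := ⟨d + 1 - a, by omega⟩
      rw [hk, show d + 2 - (a + 1) = k by omega, Nat.choose_succ_succ', Nat.choose_one_right,
        show (1 + 1 : ℕ) = 2 from rfl]
      omega

lemma R_split (b d a : ℕ) :
    R b d a + (if b ≤ d then R (d - b + 2) (d - b) a else 0) = R (d + 2) d a := by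
  unfold R
  split
  · rw [← Finset.sum_add_distrib]
    exact Finset.sum_congr rfl fun t _ => by omega
  · rw [add_zero]
    exact Finset.sum_congr rfl fun t _ => by omega

/-- Hilbert function of a complete intersection of type `(a, b, e)`. -/
def H3 (a b e d : ℕ) : ℕ := R b d a - if e ≤ d then R b (d - e) a else 0

lemma R_le (b d a : ℕ) {d' : ℕ} (h : d' ≤ d) : R b d' a ≤ R b d a :=
  Finset.sum_le_sum fun t _ => by omega

/-- The ideal of two forms, with its Koszul vanishing. -/
structure Pair (Q : GI K 3) (a b : ℕ) (J : Ideal (MvPolynomial (Fin 3) K)) : Prop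
    extends Sat Q (fun d => R b d a) J where
  exact0 : ∀ j, KExact J 0 j
  exact1 : ∀ j, j + 2 ≠ a + b → KExact J 1 j

/-- The two given forms. -/
lemma pair_of_regular {Q : GI K 3} {a b : ℕ} (ha : 1 ≤ a) (hb : 1 ≤ b)
    {f₁ f₂ : MvPolynomial (Fin 3) K} (h₁ : f₁ ∈ Q.piece a) (h₂ : f₂ ∈ Q.piece b) (h0 : f₁ ≠ 0)
    (hreg : ∀ x, f₂ * x ∈ Ideal.span {f₁} → x ∈ Ideal.span {f₁}) :
    Pair Q a b (Ideal.span {f₁} ⊔ Ideal.span {f₂}) := by
  have h1 : Sat Q (fun d => R (d + 2) d a) (Ideal.span {f₁}) := by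
    rw [← bot_sup_eq (Ideal.span {f₁})]
    refine (sat_bot Q).succ h₁ (fun x hx => ?_) h0 fun d => ?_
    · simpa [h0] using hx
    · show _ = (3 + d - 1).choose d
      have hsym : ∀ m, (3 + m - 1).choose m = (m + 2).choose 2 := fun m => by
        rw [show 3 + m - 1 = m + 2 by omega, Nat.choose_symm_add]
      simp only [hsym]
      rw [choose_two_R d a]
      split
      · rw [show d - a + 2 = d + 2 - a by omega]
      · rw [show (d + 2 - a).choose 2 = 0 from Nat.choose_eq_zero_of_lt (by omega)]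
  have hk0 : ∀ p, p < 3 → ∀ j, KExact (⊥ : Ideal (MvPolynomial (Fin 3) K)) p j :=
    fun p hp j => kexact_bot hp j
  have hbot : Closed (⊥ : Ideal (MvPolynomial (Fin 3) K)) := (sat_bot Q).closed
  have hr1 : ∀ x, f₁ * x ∈ (⊥ : Ideal (MvPolynomial (Fin 3) K)) → x ∈ (⊥ : Ideal _) := fun x hx =>
    by simpa [h0] using hx
  have e1 : ∀ p, p < 2 → ∀ j, KExact (Ideal.span {f₁}) p j := fun p hp j => by
    rw [← bot_sup_eq (Ideal.span {f₁})]
    exact kexact_succ hbot ha (Q.le a h₁) hr1 (hk0 p (by omega) j) fun _ => hk0 (p + 1) (by omega) _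
  have e2 : ∀ j, j + 1 ≠ a → KExact (Ideal.span {f₁}) 2 j := fun j hj => by
    rw [← bot_sup_eq (Ideal.span {f₁})]
    exact kexact_succ hbot ha (Q.le a h₁) hr1 (hk0 2 (by omega) j) fun h =>
      kexact_top (by omega) _
  have hf20 : f₂ ≠ 0 := fun h => by
    have := hreg 1 (by simp [h])
    rw [Ideal.mem_span_singleton] at this
    obtain ⟨w, hw⟩ := this
    have hc : constantCoeff f₁ = 0 := (Q.le a h₁ : f₁.IsHomogeneous a).coeff_eq_zero (by simp; omega)
    simpa [hc] using congrArg constantCoeff hw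
  refine ⟨h1.succ h₂ hreg hf20 fun d => ?_, fun j => ?_, fun j hj => ?_⟩
  · exact R_split b d a
  · exact kexact_succ h1.closed hb (Q.le b h₂) hreg (e1 0 (by omega) j) fun _ => e1 1 (by omega) _
  · exact kexact_succ h1.closed hb (Q.le b h₂) hreg (e1 1 (by omega) j) fun h =>
      e2 _ (by omega)

/-- A functional detecting the socle, and the linked family. -/
lemma exists_link {Q : GI K n} {H : ℕ → ℕ} {J : Ideal (MvPolynomial (Fin n) K)} (hJ : Sat Q H J)
    {D : ℕ} (hD : H D = 1) (hk : ∀ j < D, KExact J 0 j) (hsym : ∀ a ≤ D, H (D - a) = H a) :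
    ∃ L : GI K n, (∀ d, part J d ≤ L.piece d) ∧ ∀ a ≤ D, L.hf a + Q.hf (D - a) = H a := by
  have hd := hJ.dims D
  rw [hD] at hd
  obtain ⟨y, hy, hyJ⟩ : ∃ y ∈ homogeneousSubmodule (Fin n) K D, y ∉ part J D :=
    SetLike.exists_of_lt (lt_of_le_of_ne (part_le J D) fun e => by rw [e] at hd; omega)
  obtain ⟨Φ, hΦy, hΦJ⟩ := Submodule.exists_le_ker_of_notMem hyJ
  have hΦ : ∀ a ∈ homogeneousSubmodule (Fin n) K D, Φ a = 0 → a ∈ J := by
    intro a ha h0
    have hlt : part J D < part J D ⊔ Submodule.span K {y} :=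
      lt_of_le_of_ne le_sup_left fun e => hyJ (e ▸ Submodule.mem_sup_right (Submodule.mem_span_singleton_self y))
    have htop : part J D ⊔ Submodule.span K {y} = homogeneousSubmodule (Fin n) K D := by
      have hsub : part J D ⊔ Submodule.span K {y} ≤ homogeneousSubmodule (Fin n) K D :=
        sup_le (part_le J D) ((Submodule.span_singleton_le_iff_mem _ _).2 hy)
      haveI := Submodule.finiteDimensional_of_le hsub
      refine Submodule.eq_of_le_of_finrank_le hsub ?_
      have := Submodule.finrank_lt_finrank_of_lt hlt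
      omega
    rw [← htop] at ha
    obtain ⟨b, hb, z, hz, rfl⟩ := Submodule.mem_sup.1 ha
    obtain ⟨c, rfl⟩ := Submodule.mem_span_singleton.1 hz
    rw [map_add, show Φ b = 0 from hΦJ hb, zero_add, map_smul, smul_eq_mul] at h0
    rcases mul_eq_zero.1 h0 with hc | hc
    · simpa [hc] using hb.2
    · exact absurd hc hΦy
  have hnd : ∀ b a, a + b = D → ∀ q ∈ homogeneousSubmodule (Fin n) K a,
      (∀ r ∈ homogeneousSubmodule (Fin n) K b, Φ (q * r) = 0) → q ∈ J := by
    intro b
    induction b with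
    | zero =>
      intro a ha q hq h
      obtain rfl : a = D := by omega
      exact hΦ q hq (by simpa using h 1 (isHomogeneous_one _ _))
    | succ b ih =>
      intro a ha q hq h
      refine socle_mem (hk a (by omega)) hq fun i => ?_
      refine ih (a + 1) (by omega) _ (by rw [add_comm]; exact mul_mem_homogeneous (isHomogeneous_X K i) hq)
        fun r hr => ?_
      have h' := h (X i * r) (by rw [add_comm]; exact mul_mem_homogeneous (isHomogeneous_X K i) hr)
      rw [show X i * q * r = q * (X i * r) by ring]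
      exact h'
  have hker : ∀ a b, a + b = D → ∀ v ∈ part J a, ∀ r ∈ homogeneousSubmodule (Fin n) K b,
      Φ (v * r) = 0 := fun a b hab v hv r hr =>
    LinearMap.mem_ker.1 (hΦJ (Submodule.mem_inf.2
      ⟨by have := mul_mem_homogeneous hv.1 hr; rw [hab] at this; exact this,
        J.mul_mem_right r hv.2⟩))
  refine ⟨dualGI Q Φ D, fun d x hx => ?_, fun a ha => ?_⟩
  · simp only [dualGI]
    split
    · next h =>
      exact ⟨⟨x, hx.1⟩, LinearMap.ext fun r => hker d (D - d) (by omega) x hx r (Q.le _ r.2), rfl⟩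
    · exact hx.1
  set L := dualGI Q Φ D
  set W := Q.piece (D - a)
  set B := pair Φ a W
  have e1 := B.finrank_range_add_finrank_ker
  have e2 : L.piece a = (LinearMap.ker B).map (homogeneousSubmodule (Fin n) K a).subtype := by
    show (if a ≤ D then _ else _) = _
    rw [if_pos ha]
  have e3 : finrank K (L.piece a) = finrank K (LinearMap.ker B) := by
    rw [e2]
    exact (Submodule.equivMapOfInjective _ (Submodule.injective_subtype _) _).finrank_eq.symm
  have e4 := L.hf_add a
  set JW := (part J (D - a)).comap W.subtype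
  have e5 : finrank K JW = finrank K (part J (D - a)) :=
    (Submodule.comapSubtypeEquivOfLe (hJ.le_piece _)).finrank_eq
  have e6 : LinearMap.range B ≤ JW.dualAnnihilator := by
    rintro _ ⟨x, rfl⟩
    rw [Submodule.mem_dualAnnihilator]
    intro w hw
    show Φ (x.1 * w.1) = 0
    rw [mul_comm]
    exact hker (D - a) a (by omega) _ hw _ x.2
  have e7 : (LinearMap.range B).dualCoannihilator ≤ JW := by
    intro w hw
    refine ⟨Q.le _ w.2, hnd a (D - a) (by omega) _ (Q.le _ w.2) fun r hr => ?_⟩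
    have := (Submodule.mem_dualCoannihilator _).1 hw (B ⟨r, hr⟩) ⟨_, rfl⟩
    show Φ (w.1 * r) = 0
    rw [mul_comm]
    exact this
  have e8 := Subspace.finrank_add_finrank_dualCoannihilator_eq (LinearMap.range B)
  have e9 := Subspace.finrank_add_finrank_dualAnnihilator_eq JW
  have e10 := Submodule.finrank_mono e6
  have e11 := Submodule.finrank_mono e7
  have e12 := hJ.dims (D - a)
  rw [hsym a ha] at e12
  have e13 := Q.hf_add (D - a)
  have eW : finrank K W = finrank K (Q.piece (D - a)) := rfl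
  omega

end Vale.Agent.P200.Ternary
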